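import Vale.Agent.P167.Top.Plane

/-!
# P167, block A3a: the winding number of a loop
-/

namespace Vale.Agent.P167

open Finset
open Vale.Agent.P145.FB (PStep PConn)

variable {ω : Cfg} {ℓ : Finset Ed}

/-- The contribution of an edge to the winding number around `s`. -/
def Wc (s : ℤ × ℤ) : Ed → ℤ
  | Sum.inl _ => 0
  | Sum.inr v => if v.2 + 1 = s.2 ∧ s.1 ≤ v.1 then sg (Sum.inr v) else 0

theorem W_eq (ℓ : Finset Ed) (s : ℤ × ℤ) : W ℓ s = ∑ e ∈ ℓ, Wc s e := by
  unfold W
  refine Finset.sum_congr rfl fun e _ => ?_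
  rcases e with v | v <;> rfl

/-- Jump of the winding number across a vertical medial edge. -/
theorem W_vert (ℓ : Finset Ed) (x y : ℤ) :
    W ℓ (x, y + 1) - W ℓ (x + 1, y + 1) = if Sum.inr (x, y) ∈ ℓ then sg (Sum.inr (x, y)) else 0 := by
  classical
  rw [W_eq, W_eq, ← Finset.sum_sub_distrib, ← Finset.sum_ite_eq ℓ (Sum.inr (x, y)) sg]
  refine Finset.sum_congr rfl fun e _ => ?_
  rcases e with ⟨a, b⟩ | ⟨a, b⟩
  · simp [Wc]
  · simp only [Wc]
    by_cases h : (a, b) = (x, y)
    · obtain ⟨rfl, rfl⟩ := Prod.mk.inj h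
      rw [if_pos ⟨rfl, le_rfl⟩, if_neg (by omega), if_pos rfl, sub_zero]
    · have h' : ¬ (a = x ∧ b = y) := fun hh => h (Prod.ext hh.1 hh.2)
      rw [if_neg (c := Sum.inr (x, y) = _) (fun hh => h (Sum.inr_injective hh).symm)]
      by_cases h1 : b + 1 = y + 1 ∧ x ≤ a
      · rw [if_pos h1, if_pos (by omega), sub_self]
      · rw [if_neg h1, if_neg (by omega), sub_self]

theorem hor_aux (e : Ed) (x y : ℤ) :
    (if (hdv e).2 = y ∧ x + 1 ≤ (hdv e).1 then (1 : ℤ) else 0) -
      (if (tlv e).2 = y ∧ x + 1 ≤ (tlv e).1 then 1 else 0) =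
    Wc (x + 1, y) e - Wc (x + 1, y + 1) e + if Sum.inl (x, y) = e then sg e else 0 := by
  rcases e with ⟨a, b⟩ | ⟨a, b⟩
  · simp only [Wc, hdv, tlv, sg, Sum.inl.injEq, Prod.mk.injEq, sub_zero, zero_add]
    by_cases h : Even (a + b)
    · simp only [h, if_true]
      split_ifs <;> omega
    · simp only [h, if_false]
      split_ifs <;> omega
  · simp only [Wc, hdv, tlv, sg, reduceCtorEq, if_false, add_zero]
    by_cases h : Even (a + b)
    · simp only [h, if_true]
      split_ifs <;> omega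
    · simp only [h, if_false]
      split_ifs <;> omega

/-- Jump of the winding number across a horizontal medial edge. -/
theorem W_hor (h : IsLoop ω ℓ) (x y : ℤ) :
    W ℓ (x + 1, y + 1) - W ℓ (x + 1, y) = if Sum.inl (x, y) ∈ ℓ then sg (Sum.inl (x, y)) else 0 := by
  classical
  have h1 := h.sum_eq fun u => if u.2 = y ∧ x + 1 ≤ u.1 then (1 : ℤ) else 0
  simp only [hor_aux] at h1
  rw [Finset.sum_add_distrib, Finset.sum_sub_distrib, Finset.sum_ite_eq, ← W_eq, ← W_eq] at h1
  linarith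

/-- A3.2 -/
theorem s_jump : S_jump := by
  intro ω ℓ h e
  rcases e with ⟨x, y⟩ | ⟨x, y⟩
  · have h1 := W_hor h x y
    simp only [ls, rs]
    by_cases he : Even (x + y)
    · simp only [he, if_true, sg] at h1 ⊢
      linarith
    · simp only [he, if_false, sg] at h1 ⊢
      split_ifs at h1 ⊢ <;> linarith
  · have h1 := W_vert ℓ x y
    simp only [ls, rs]
    by_cases he : Even (x + y)
    · simp only [he, if_true, sg] at h1 ⊢
      split_ifs at h1 ⊢ <;> linarith
    · simp only [he, if_false, sg] at h1 ⊢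
      linarith

/-- Along the loop the winding numbers on the left side are constant. -/
theorem W_ls_const (h : IsLoop ω ℓ) {e e' : Ed} (he : e ∈ ℓ) (he' : e' ∈ ℓ) :
    W ℓ (ls e') = W ℓ (ls e) := by
  refine h.induct (p := fun x => W ℓ (ls x) = W ℓ (ls e)) (fun x hx hxe => ?_) he he' rfl
  cases h0 : ω (hdv x) with
  | false => rw [ls_nx h0]; exact hxe
  | true =>
    have h1 := s_jump ω ℓ h x
    have h2 := s_jump ω ℓ h (nx ω x)
    rw [if_pos hx] at h1
    rw [if_pos (h.nx_mem hx), rs_nx h0] at h2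
    rw [h2, ← h1, hxe]

/-- There is a vertical edge in every loop. -/
theorem exists_vert (h : IsLoop ω ℓ) : ∃ v, Sum.inr v ∈ ℓ := by
  obtain ⟨e, he⟩ := h.nonempty
  rcases e with v | v
  · have h1 := h.nx_mem he
    simp only [nx] at h1
    split_ifs at h1 <;> exact ⟨_, h1⟩
  · exact ⟨v, he⟩

theorem W_zero_right (ℓ : Finset Ed) {s : ℤ × ℤ} (hs : ∀ v, Sum.inr v ∈ ℓ → v.2 + 1 = s.2 → v.1 < s.1) :
    W ℓ s = 0 := by
  rw [W_eq]
  refine Finset.sum_eq_zero fun e he => ?_
  rcases e with v | v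
  · rfl
  · simp only [Wc]
    rw [if_neg]
    intro h
    have := hs v he h.1
    omega

/-- The values of the winding number: `0`, the value on the left and the value on the right. -/
theorem W_values_aux (h : IsLoop ω ℓ) {e : Ed} (he : e ∈ ℓ) (s : ℤ × ℤ) :
    W ℓ s = 0 ∨ W ℓ s = W ℓ (ls e) ∨ W ℓ s = W ℓ (ls e) - 1 := by
  classical
  obtain ⟨x, y⟩ := s
  obtain ⟨y, rfl⟩ : ∃ y', y = y' + 1 := ⟨y - 1, by ring⟩
  -- a bound for the first coordinates
  obtain ⟨B, hB⟩ : ∃ B : ℤ, ∀ v, Sum.inr v ∈ ℓ → v.1 < B := by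
    obtain ⟨v0, hv0⟩ := exists_vert h
    obtain ⟨B, hB⟩ := (ℓ.image fun e : Ed => match e with
      | Sum.inl _ => (0 : ℤ) | Sum.inr v => v.1).bddAbove
    refine ⟨B + 1, fun v hv => ?_⟩
    have := hB (Finset.mem_coe.mpr (Finset.mem_image_of_mem _ hv))
    simp only at this
    omega
  rcases le_or_gt B x with hx | hx
  · left
    exact W_zero_right ℓ fun v hv _ => by have := hB v hv; simp only; omega
  · have : ∀ k : ℕ, W ℓ (B - k, y + 1) = 0 ∨ W ℓ (B - k, y + 1) = W ℓ (ls e) ∨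
        W ℓ (B - k, y + 1) = W ℓ (ls e) - 1 := by
      intro k
      induction k with
      | zero =>
        left
        exact W_zero_right ℓ fun v hv _ => by have := hB v hv; simp; omega
      | succ k ih =>
        have h1 := W_vert ℓ (B - (k + 1 : ℕ)) y
        rw [show B - ((k + 1 : ℕ) : ℤ) + 1 = B - k by push_cast; ring] at h1
        by_cases hmem : Sum.inr (B - ((k + 1 : ℕ) : ℤ), y) ∈ ℓ
        · right
          have h2 := W_ls_const h he hmem
          have h3 := s_jump ω ℓ h (Sum.inr (B - ((k + 1 : ℕ) : ℤ), y))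
          rw [if_pos hmem, h2] at h3
          by_cases hev : Even (B - ((k + 1 : ℕ) : ℤ) + y)
          · right
            simp only [rs, hev, if_true] at h3
            linarith
          · left
            simp only [ls, hev, if_false] at h2
            exact h2
        · rw [if_neg hmem, sub_eq_zero] at h1
          rw [h1]
          exact ih
    have := this (B - x).toNat
    rwa [Int.toNat_of_nonneg (by omega), sub_sub_cancel] at this

/-- One of the two values next to the loop is `0`. -/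
theorem W_zero_adj (h : IsLoop ω ℓ) {e : Ed} (he : e ∈ ℓ) : W ℓ (ls e) = 0 ∨ W ℓ (ls e) = 1 := by
  classical
  -- the rightmost vertical edge
  obtain ⟨v0, hv0⟩ := exists_vert h
  obtain ⟨v, hv, hmax⟩ := Finset.exists_max_image (ℓ.filter fun e => ∃ v, e = Sum.inr v)
    (fun e : Ed => match e with | Sum.inl _ => (0 : ℤ) | Sum.inr v => v.1)
    ⟨Sum.inr v0, Finset.mem_filter.mpr ⟨hv0, v0, rfl⟩⟩
  obtain ⟨hvℓ, ⟨x, y⟩, rfl⟩ := Finset.mem_filter.mp hv
  have hz : W ℓ (x + 1, y + 1) = 0 := by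
    refine W_zero_right ℓ fun u hu _ => ?_
    have := hmax (Sum.inr u) (Finset.mem_filter.mpr ⟨hu, u, rfl⟩)
    simp only at this ⊢
    omega
  have h2 := W_ls_const h he hvℓ
  have h3 := s_jump ω ℓ h (Sum.inr (x, y))
  rw [if_pos hvℓ, h2] at h3
  by_cases hev : Even (x + y)
  · left
    rw [show ls (Sum.inr (x, y)) = (x + 1, y + 1) by simp [ls, hev]] at h2
    linarith
  · right
    rw [show rs (Sum.inr (x, y)) = (x + 1, y + 1) by simp [rs, hev]] at h3
    linarith

/-- A3.3 -/
theorem s_sign : S_sign := by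
  intro ω ℓ h
  obtain ⟨e, he⟩ := h.nonempty
  have h1 := W_values_aux h he
  have h3 := s_jump ω ℓ h e
  rw [if_pos he] at h3
  rcases W_zero_adj h he with h0 | h0
  · refine ⟨Or.inr fun s => ?_, rs e, by omega⟩
    have := h1 s
    omega
  · refine ⟨Or.inl fun s => ?_, ls e, by omega⟩
    have := h1 s
    omega

theorem out_aux (e : Ed) (y : ℤ) : (if y ≤ (hdv e).2 then (1 : ℤ) else 0) -
    (if y ≤ (tlv e).2 then 1 else 0) =
    match e with | Sum.inl _ => 0 | Sum.inr v => if v.2 + 1 = y then sg (Sum.inr v) else 0 := by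
  rcases e with ⟨a, b⟩ | ⟨a, b⟩
  · simp only [hdv, tlv]
    split_ifs <;> simp_all
  · simp only [hdv, tlv, sg]
    by_cases h : Even (a + b)
    · simp only [h, if_true]
      split_ifs <;> omega
    · simp only [h, if_false]
      split_ifs <;> omega

/-- A3.4 -/
theorem s_out : S_out := by
  intro ω ℓ h a b c d hbox s hs
  have hv : ∀ v, Sum.inr v ∈ ℓ → (a ≤ v.1 ∧ v.1 ≤ b) ∧ (c ≤ v.2 ∧ v.2 + 1 ≤ d) := by
    intro v hv
    have h1 := hbox _ (Finset.mem_image_of_mem _ hv)
    have h2 := hbox _ (tlv_mem h hv)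
    simp only [hdv, tlv] at h1 h2
    split_ifs at h1 h2 <;> omega
  refine ⟨?_, ?_, ?_, ?_⟩
  · by_contra hcon
    apply hs
    have h1 := h.sum_eq fun u => if s.2 ≤ u.2 then (1 : ℤ) else 0
    simp only [out_aux] at h1
    rw [W_eq, ← h1]
    refine Finset.sum_congr rfl fun e he => ?_
    rcases e with v | v
    · rfl
    · simp only [Wc]
      have := hv v he
      by_cases h2 : v.2 + 1 = s.2
      · rw [if_pos ⟨h2, by omega⟩, if_pos h2]
      · rw [if_neg (fun h => h2 h.1), if_neg h2]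
  · by_contra hcon
    exact hs (W_zero_right ℓ fun v hv' _ => by have := hv v hv'; omega)
  · by_contra hcon
    exact hs (W_zero_right ℓ fun v hv' _ => by have := hv v hv'; omega)
  · by_contra hcon
    exact hs (W_zero_right ℓ fun v hv' _ => by have := hv v hv'; omega)

/-- The winding numbers around the two corners of a square which are joined in it agree. -/
theorem W_step_aux (h : IsLoop ω ℓ) (e : Ed) :
    (ω (hdv e) = true → W ℓ (ls (nx ω e)) = W ℓ (ls e)) ∧
    (ω (hdv e) = false → W ℓ (rs (nx ω e)) = W ℓ (rs e)) := by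
  have h1 := s_jump ω ℓ h e
  have h2 := s_jump ω ℓ h (nx ω e)
  simp only [h.nx_mem_iff] at h2
  constructor
  · intro h0
    rw [rs_nx h0] at h2
    rw [h1, h2]
  · intro h0
    rw [ls_nx h0] at h2
    linarith

theorem W_square (h : IsLoop ω ℓ) (x y : ℤ) :
    ((Even (x + y) ∧ ω (x, y) = true) ∨ (¬ Even (x + y) ∧ ω (x, y) = false) →
      W ℓ (x, y) = W ℓ (x + 1, y + 1)) ∧
    ((¬ Even (x + y) ∧ ω (x, y) = true) ∨ (Even (x + y) ∧ ω (x, y) = false) →
      W ℓ (x + 1, y) = W ℓ (x, y + 1)) := by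
  by_cases hev : Even (x + y)
  · have h1 := W_step_aux h (Sum.inr (x, y))
    constructor
    · rintro (⟨-, h0⟩ | ⟨h0, -⟩)
      · have h2 := h1.1 (by simpa [hdv, hev] using h0)
        simpa [nx, ls, hev, h0, ev3] using h2
      · exact absurd hev h0
    · rintro (⟨h0, -⟩ | ⟨-, h0⟩)
      · exact absurd hev h0
      · have h2 := h1.2 (by simpa [hdv, hev] using h0)
        simpa [nx, rs, hev, h0, ev3] using h2
  · have h1 := W_step_aux h (Sum.inl (x, y))
    constructor
    · rintro (⟨h0, -⟩ | ⟨-, h0⟩)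
      · exact absurd h0 hev
      · have h2 := h1.2 (by simpa [hdv, hev] using h0)
        simpa [nx, rs, hev, h0, ev4] using h2
    · rintro (⟨-, h0⟩ | ⟨h0, -⟩)
      · have h2 := h1.1 (by simpa [hdv, hev] using h0)
        have h3 : W ℓ (x, y + 1) = W ℓ (x + 1, y) := by
          simpa [nx, ls, hev, h0, ev4] using h2
        exact h3.symm
      · exact absurd h0 hev

/-- A3.5 -/
theorem s_step : S_step := by
  intro ω ℓ h s t hst
  obtain ⟨x, y⟩ := s
  obtain ⟨x', y'⟩ := t
  have hpar : ∀ a b : ℤ, Odd (a + b) ↔ ¬ Even (a + b) := fun a b => Int.not_even_iff_odd.symm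
  simp only [PStep, hpar] at hst
  have hmem : ∀ q : ℤ × ℤ, (q ∈ op ω ↔ ω q = true) ∧ (q ∈ (op ω)ᶜ ↔ ω q = false) := by
    intro q
    constructor
    · rfl
    · simp [op]
  simp only [(hmem _).1, (hmem _).2] at hst
  have e1 : ∀ a : ℤ, min a (a + 1) = a := fun a => by omega
  have e2 : ∀ a : ℤ, min a (a - 1) = a - 1 := fun a => by omega
  have p1 : ∀ a b : ℤ, Even (a - 1 + (b - 1)) ↔ Even (a + b) := fun a b => by
    rw [Int.even_iff, Int.even_iff]; omega
  rcases hst with ⟨hev, h1 | h1, h2 | h2, h0⟩ | ⟨hev, h1 | h1, h2 | h2, h0⟩ <;> subst h1 <;>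
    subst h2 <;> simp only [e1, e2] at h0
  · exact (W_square h x y).1 (Or.inl ⟨hev, h0⟩)
  · have := (W_square h x (y - 1)).2 (Or.inl ⟨by rw [ev4]; simpa using hev, h0⟩)
    simpa using this.symm
  · have := (W_square h (x - 1) y).2 (Or.inl ⟨by rw [ev3]; simpa using hev, h0⟩)
    simpa using this
  · have := (W_square h (x - 1) (y - 1)).1 (Or.inl ⟨by rw [p1]; exact hev, h0⟩)
    simpa using this.symm
  · exact (W_square h x y).1 (Or.inr ⟨hev, h0⟩)
  · have := (W_square h x (y - 1)).2 (Or.inr ⟨by rw [ev4]; exact hev, h0⟩)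
    simpa using this.symm
  · have := (W_square h (x - 1) y).2 (Or.inr ⟨by rw [ev3]; exact hev, h0⟩)
    simpa using this
  · have := (W_square h (x - 1) (y - 1)).1 (Or.inr ⟨by rw [p1]; exact hev, h0⟩)
    simpa using this.symm

/-- A3.6 -/
theorem s_two : S_two := by
  intro ω ℓ ℓ' h h' hne
  have hdis : ∀ e ∈ ℓ', e ∉ ℓ := fun e he' he => hne (h.eq_of_mem h' he he')
  refine ⟨hdis, ?_⟩
  have hlr : ∀ e ∈ ℓ', W ℓ (ls e) = W ℓ (rs e) := by
    intro e he
    rw [s_jump ω ℓ h e, if_neg (hdis e he), add_zero]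
  intro e he e' he'
  have key : W ℓ (ls e') = W ℓ (ls e) := by
    refine h'.induct (p := fun x => W ℓ (ls x) = W ℓ (ls e)) (fun x hx hxe => ?_) he he' rfl
    cases h0 : ω (hdv x) with
    | false => rw [ls_nx h0]; exact hxe
    | true => rw [hlr _ (h'.nx_mem hx), rs_nx h0, ← hlr x hx, hxe]
  refine ⟨key.symm, ?_, hlr e he⟩
  rw [← hlr e he, ← hlr e' he', key]

end Vale.Agent.P167
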