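import Vale.Agent.P167.Top.Hopf

/-! Lattice paths given by vertices and headings; the total turning of closed and of periodic
paths. Headings are integers modulo 4: `0` = east, `1` = north, `2` = west, `3` = south. -/

namespace Vale.Agent.P167.Top

open Finset

/-- The horizontal component of the heading `d`. -/
def dx (d : ℤ) : ℤ := if d % 4 = 0 then 1 else if d % 4 = 2 then -1 else 0

/-- The vertical component of the heading `d`. -/
def dy (d : ℤ) : ℤ := if d % 4 = 1 then 1 else if d % 4 = 3 then -1 else 0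

/-- The unit vector of the heading `d`. -/
def vec (d : ℤ) : ℤ × ℤ := (dx d, dy d)

theorem dx_congr {d d' : ℤ} (h : d % 4 = d' % 4) : dx d = dx d' := by unfold dx; rw [h]

theorem dy_congr {d d' : ℤ} (h : d % 4 = d' % 4) : dy d = dy d' := by unfold dy; rw [h]

theorem vec_congr {d d' : ℤ} (h : d % 4 = d' % 4) : vec d = vec d' := by
  unfold vec; rw [dx_congr h, dy_congr h]

/-- Vertices `v` and (lifted) headings `d` of a lattice path which turns at every vertex. -/
structure IsPath (v : ℕ → ℤ × ℤ) (d : ℕ → ℤ) : Prop where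
  step : ∀ i, v (i + 1) = v i + vec (d i)
  turn : ∀ i, d (i + 1) = d i + 1 ∨ d (i + 1) = d i - 1

/-- Twice the midpoint of the `i`-th edge. -/
def mid (v : ℕ → ℤ × ℤ) (d : ℕ → ℤ) (i : ℕ) : ℤ × ℤ :=
  (2 * (v i).1 + dx (d i), 2 * (v i).2 + dy (d i))

variable {v : ℕ → ℤ × ℤ} {d : ℕ → ℤ}

theorem mid_step (h : IsPath v d) (i : ℕ) :
    mid v d (i + 1) - mid v d i = (dx (d i) + dx (d (i + 1)), dy (d i) + dy (d (i + 1))) := by
  unfold mid
  rw [h.step i]
  ext <;> simp [vec] <;> ring

/-- The four values of a heading. -/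
theorem head_cases (d : ℤ) : (d % 4 = 0 ∧ dx d = 1 ∧ dy d = 0) ∨ (d % 4 = 1 ∧ dx d = 0 ∧ dy d = 1) ∨
    (d % 4 = 2 ∧ dx d = -1 ∧ dy d = 0) ∨ (d % 4 = 3 ∧ dx d = 0 ∧ dy d = -1) := by
  unfold dx dy
  rcases (by omega : d % 4 = 0 ∨ d % 4 = 1 ∨ d % 4 = 2 ∨ d % 4 = 3) with h | h | h | h <;>
    simp [h]

theorem diag_mid (h : IsPath v d) (i : ℕ) : Diag (mid v d (i + 1) - mid v d i) := by
  rw [mid_step h]
  unfold Diag
  simp only
  have h1 := h.turn i
  have h2 := head_cases (d i)
  have h3 := head_cases (d (i + 1))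
  omega

theorem kd_eq (h : IsPath v d) (i : ℕ) :
    kd (mid v d) i = min (d (i + 1)) (d (i + 2)) / 4 - min (d i) (d (i + 1)) / 4 := by
  have e1 : sec (mid v d) i (i + 1) =
      (dx (d i) + dx (d (i + 1)), dy (d i) + dy (d (i + 1))) := mid_step h i
  have e2 : sec (mid v d) (i + 1) (i + 1 + 1) =
      (dx (d (i + 1)) + dx (d (i + 2)), dy (d (i + 1)) + dy (d (i + 2))) := mid_step h (i + 1)
  have e3 : sec (mid v d) i (i + 1 + 1) = (dx (d i) + dx (d (i + 1)) + (dx (d (i + 1)) +
      dx (d (i + 2))), dy (d i) + dy (d (i + 1)) + (dy (d (i + 1)) + dy (d (i + 2)))) := by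
    have : sec (mid v d) i (i + 1 + 1) =
        sec (mid v d) i (i + 1) + sec (mid v d) (i + 1) (i + 1 + 1) := by
      simp only [sec]; abel
    rw [this, e1, e2]
    rfl
  unfold kd
  rw [e1, e2, e3]
  have h1 := h.turn i
  have h2 := h.turn (i + 1)
  have c1 := head_cases (d i)
  have c2 := head_cases (d (i + 1))
  have c3 := head_cases (d (i + 2))
  rw [show i + 1 + 1 = i + 2 by ring] at h2
  unfold kap
  simp only
  rcases h1 with h1 | h1 <;> rcases h2 with h2 | h2 <;>
    rcases c1 with ⟨c1, c1x, c1y⟩ | ⟨c1, c1x, c1y⟩ | ⟨c1, c1x, c1y⟩ | ⟨c1, c1x, c1y⟩ <;>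
    rcases c2 with ⟨c2, c2x, c2y⟩ | ⟨c2, c2x, c2y⟩ | ⟨c2, c2x, c2y⟩ | ⟨c2, c2x, c2y⟩ <;>
    first
    | (exfalso; omega)
    | (rcases c3 with ⟨c3, c3x, c3y⟩ | ⟨c3, c3x, c3y⟩ | ⟨c3, c3x, c3y⟩ | ⟨c3, c3x, c3y⟩ <;>
        first
        | (exfalso; omega)
        | (rw [c1x, c1y, c2x, c2y, c3x, c3y]; norm_num; omega))

/-- The total turning over one period is four times the number of crossings. -/
theorem sum_kd (h : IsPath v d) {n : ℕ} (hn : d n % 4 = d 0 % 4) (hn1 : d (n + 1) - d n = d 1 - d 0) :
    4 * ∑ i ∈ range n, kd (mid v d) i = d n - d 0 := by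
  have h1 : ∀ m, ∑ i ∈ range m, kd (mid v d) i =
      min (d m) (d (m + 1)) / 4 - min (d 0) (d 1) / 4 := by
    intro m
    induction m with
    | zero => simp
    | succ m ih => rw [Finset.sum_range_succ, ih, kd_eq h]; ring
  rw [h1]
  omega

/-- A periodic path with nonzero displacement whose edges are distinct has total turning zero. -/
theorem turn_open (h : IsPath v d) {n : ℕ} (hn : 2 ≤ n) {P : ℤ × ℤ} (hv : ∀ i, v (i + n) = v i + P)
    (hd : ∀ i, d (i + n) % 4 = d i % 4) (h0 : ∀ k, 1 ≤ k → k ≤ n → ∀ i, mid v d (i + k) ≠ mid v d i) :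
    d n = d 0 := by
  have hM : ∀ i, mid v d (i + n) = mid v d i + (2 * P.1, 2 * P.2) := by
    intro i
    unfold mid
    rw [hv, dx_congr (hd i), dy_congr (hd i)]
    ext <;> simp <;> ring
  have h1 := S_open (diag_mid h) hn hM h0
  rw [S_one] at h1
  have h2 := sum_kd h (n := n) (by simpa using hd 0) (by
    have a0 := hd 0
    have a1 := hd 1
    rw [zero_add] at a0
    rw [add_comm 1 n] at a1
    have b0 := h.turn 0
    have b1 := h.turn n
    rw [zero_add] at b0
    omega)
  omega

theorem IsPath.shift (h : IsPath v d) (k : ℕ) :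
    IsPath (fun i => v (i + k)) (fun i => d (i + k)) := by
  refine ⟨fun i => ?_, fun i => ?_⟩
  · have := h.step (i + k)
    rwa [show i + k + 1 = i + 1 + k by ring] at this
  · have := h.turn (i + k)
    rwa [show i + k + 1 = i + 1 + k by ring] at this

/-- The total turning over one period does not depend on the starting point. -/
theorem turn_shift (h : IsPath v d) {n : ℕ} (hd : ∀ i, d (i + n) % 4 = d i % 4) (k : ℕ) :
    d (n + k) - d k = d n - d 0 := by
  induction k with
  | zero => simp
  | succ k ih =>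
    have a0 := hd k
    have a1 := hd (k + 1)
    have b0 := h.turn k
    have b1 := h.turn (n + k)
    rw [show k + 1 + n = n + (k + 1) by ring] at a1
    rw [show k + n = n + k by ring] at a0
    rw [show n + k + 1 = n + (k + 1) by ring] at b1
    omega

/-- The data of a closed path: the period is `n` and the edges of one period are distinct. -/
structure IsClosed (v : ℕ → ℤ × ℤ) (d : ℕ → ℤ) (n : ℕ) : Prop extends IsPath v d where
  hn : 3 ≤ n
  hv : ∀ i, v (i + n) = v i
  hd : ∀ i, d (i + n) % 4 = d i % 4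
  inj : ∀ k, 1 ≤ k → k < n → ∀ i, mid v d (i + k) ≠ mid v d i

theorem IsClosed.mid_add {n : ℕ} (h : IsClosed v d n) (i : ℕ) : mid v d (i + n) = mid v d i := by
  unfold mid
  rw [h.hv, dx_congr (h.hd i), dy_congr (h.hd i)]

theorem IsClosed.mid_mod {n : ℕ} (h : IsClosed v d n) (i : ℕ) :
    mid v d (i % n) = mid v d i := by
  have : ∀ q r, mid v d (r + n * q) = mid v d r := by
    intro q
    induction q with
    | zero => simp
    | succ q ih => intro r; rw [show r + n * (q + 1) = r + n * q + n by ring, h.mid_add, ih]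
  conv_rhs => rw [← Nat.mod_add_div i n]
  rw [this]

theorem IsClosed.mid_inj {n : ℕ} (h : IsClosed v d n) {i j : ℕ} (hi : i < n) (hj : j < n)
    (he : mid v d i = mid v d j) : i = j := by
  rcases lt_trichotomy i j with hij | hij | hij
  · exfalso
    have := h.inj (j - i) (by omega) (by omega) i
    rw [show i + (j - i) = j by omega] at this
    exact this he.symm
  · exact hij
  · exfalso
    have := h.inj (i - j) (by omega) (by omega) j
    rw [show j + (i - j) = i by omega] at this
    exact this he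

/-- The Umlaufsatz. At the lowest edge (the leftmost of the lowest ones) the heading is horizontal,
and the total turning is `4` if it is east and `-4` if it is west. -/
theorem turn_closed {n : ℕ} (h : IsClosed v d n) : ∃ k < n,
    (∀ i, (mid v d k).2 ≤ (mid v d i).2) ∧ dy (d k) = 0 ∧ d n - d 0 = 4 * dx (d k) := by
  obtain ⟨k, hk, hmin⟩ := Finset.exists_min_image (range n)
    (fun i => toLex ((mid v d i).2, (mid v d i).1)) ⟨0, by
      have := h.hn
      rw [Finset.mem_range]; omega⟩
  rw [Finset.mem_range] at hk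
  have hlow : ∀ i, (mid v d k).2 < (mid v d i).2 ∨
      (mid v d k).2 = (mid v d i).2 ∧ (mid v d k).1 ≤ (mid v d i).1 := by
    intro i
    have h1 := hmin (i % n) (Finset.mem_range.mpr (Nat.mod_lt _ (by have := h.hn; omega)))
    rw [Prod.Lex.toLex_le_toLex, h.mid_mod] at h1
    exact h1
  have hs := h.toIsPath.shift k
  have hn := h.hn
  have hd' : ∀ i, d (i + n + k) % 4 = d (i + k) % 4 := fun i => by
    rw [show i + n + k = i + k + n by ring]; exact h.hd _
  have hv' : ∀ i, v (i + n + k) = v (i + k) := fun i => by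
    rw [show i + n + k = i + k + n by ring]; exact h.hv _
  have hmid : ∀ i, mid (fun i => v (i + k)) (fun i => d (i + k)) i = mid v d (i + k) :=
    fun i => rfl
  obtain ⟨hsum, hy1, hyn, hxn⟩ := S_closed (diag_mid hs) hn
    (fun i => by rw [hmid, hmid, show i + n + k = i + k + n by ring, h.mid_add])
    (fun j hj hj' i => by
      rw [hmid, hmid, show i + j + k = i + k + j by ring]; exact h.inj j hj hj' _)
    (fun i => by simp only [hmid, zero_add]; exact hlow (i + k))
  have hT := sum_kd hs (n := n) (by simpa using hd' 0) (by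
    have a0 := hd' 0
    have a1 := hd' 1
    have b0 := hs.turn 0
    have b1 := hs.turn n
    simp only [zero_add, show n + 1 + k = 1 + n + k by ring] at a0 a1 b0 b1 ⊢
    omega)
  rw [hsum] at hT
  have hts := turn_shift h.toIsPath h.hd k
  have hD0 := mid_step hs 0
  have hDn := mid_step hs (n - 1)
  simp only [zero_add] at hD0 hT hy1 hxn
  rw [show n - 1 + 1 = n by omega] at hDn
  have hmn : mid (fun i => v (i + k)) (fun i => d (i + k)) n =
      mid (fun i => v (i + k)) (fun i => d (i + k)) 0 := by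
    rw [hmid, hmid, show n + k = 0 + k + n by ring, h.mid_add]
  have hdn : dx (d (n + k)) = dx (d k) := dx_congr (by simpa using hd' 0)
  have hdn' : dy (d (n + k)) = dy (d k) := dy_congr (by simpa using hd' 0)
  rw [hmn, hdn, hdn'] at hDn
  have hx0 := congrArg Prod.fst hD0
  have hy0 := congrArg Prod.snd hD0
  have hxn' := congrArg Prod.fst hDn
  have hyn' := congrArg Prod.snd hDn
  simp only [Prod.fst_sub, Prod.snd_sub] at hx0 hy0 hxn' hyn' hxn hT
  have b0 := h.turn k
  have c0 := head_cases (d k)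
  have c1 := head_cases (d (1 + k))
  have c2 := head_cases (d (n - 1 + k))
  refine ⟨k, hk, fun i => by have := hlow i; omega, ?_, ?_⟩
  · omega
  · omega

end Vale.Agent.P167.Top
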