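import Vale.Agent.P167.Top.PlaneW
import Vale.Agent.P167.Top.Head

/-!
# P167, block A2: the total turning of loops and of periodic interfaces
-/

namespace Vale.Agent.P167

open Finset Top

/-- The turn at the head of a medial edge: `-1` (right) at an open square, `1` (left) at a closed
one. -/
def trn (ω : Cfg) (e : Ed) : ℤ := if ω (hdv e) then -1 else 1

/-- The heading of the canonical direction of a medial edge. -/
def hd4 : Ed → ℤ
  | Sum.inl v => if Even (v.1 + v.2) then 0 else 2
  | Sum.inr v => if Even (v.1 + v.2) then 3 else 1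

theorem hdv_eq (e : Ed) : hdv e = tlv e + vec (hd4 e) := by
  rcases e with ⟨x, y⟩ | ⟨x, y⟩ <;> by_cases h : Even (x + y) <;>
    simp [hdv, tlv, hd4, vec, dx, dy, h]

theorem hd4_nx (ω : Cfg) (e : Ed) : (hd4 (nx ω e) - hd4 e - trn ω e) % 4 = 0 := by
  rcases e with ⟨x, y⟩ | ⟨x, y⟩
  · by_cases h : Even (x + y)
    · cases h1 : ω (x + 1, y) <;> simp [nx, hd4, trn, hdv, h, h1, ev1, ev4]
    · cases h1 : ω (x, y) <;> simp [nx, hd4, trn, hdv, h, h1, ev4]
  · by_cases h : Even (x + y)
    · cases h1 : ω (x, y) <;> simp [nx, hd4, trn, hdv, h, h1, ev3]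
    · cases h1 : ω (x, y + 1) <;> simp [nx, hd4, trn, hdv, h, h1, ev2, ev3]

/-- Twice the midpoint of a medial edge. -/
def me : Ed → ℤ × ℤ
  | Sum.inl v => (2 * v.1 + 1, 2 * v.2)
  | Sum.inr v => (2 * v.1, 2 * v.2 + 1)

theorem me_injective : Function.Injective me := by
  rintro (⟨x, y⟩ | ⟨x, y⟩) (⟨a, b⟩ | ⟨a, b⟩) h <;> simp only [me, Prod.mk.injEq] at h
  · obtain ⟨rfl, rfl⟩ : x = a ∧ y = b := by omega
    rfl
  · omega
  · omega
  · obtain ⟨rfl, rfl⟩ : x = a ∧ y = b := by omega
    rfl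

theorem me_eq (e : Ed) : me e = (2 * (tlv e).1 + dx (hd4 e), 2 * (tlv e).2 + dy (hd4 e)) := by
  rcases e with ⟨x, y⟩ | ⟨x, y⟩ <;> by_cases h : Even (x + y) <;>
    simp [me, tlv, hd4, dx, dy, h] <;> ring

/-- The lifted heading along the interface. -/
def dl (ω : Cfg) (e : Ed) (i : ℕ) : ℤ := hd4 e + ∑ k ∈ range i, trn ω ((nx ω)^[k] e)

theorem dl_mod (ω : Cfg) (e : Ed) (i : ℕ) : dl ω e i % 4 = hd4 ((nx ω)^[i] e) % 4 := by
  induction i with
  | zero => simp [dl]
  | succ i ih =>
    have h := hd4_nx ω ((nx ω)^[i] e)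
    rw [Function.iterate_succ_apply']
    unfold dl at ih ⊢
    rw [Finset.sum_range_succ]
    omega

theorem isPath (ω : Cfg) (e : Ed) : IsPath (fun i => tlv ((nx ω)^[i] e)) (dl ω e) := by
  refine ⟨fun i => ?_, fun i => ?_⟩
  · change tlv ((nx ω)^[i + 1] e) = tlv ((nx ω)^[i] e) + vec (dl ω e i)
    rw [Function.iterate_succ_apply', tlv_nx, hdv_eq, vec_congr (dl_mod ω e i)]
  · unfold dl
    rw [Finset.sum_range_succ]
    unfold trn
    split_ifs
    · right; ring
    · left; ring

theorem mid_eq (ω : Cfg) (e : Ed) (i : ℕ) :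
    mid (fun i => tlv ((nx ω)^[i] e)) (dl ω e) i = me ((nx ω)^[i] e) := by
  unfold mid
  rw [me_eq, dx_congr (dl_mod ω e i), dy_congr (dl_mod ω e i)]

/-- The interface turns at each step, so that it cannot close up in one or two steps. -/
theorem nx_ne (ω : Cfg) (e : Ed) : nx ω e ≠ e := by
  rcases e with v | v <;> simp only [nx] <;> split_ifs <;> simp

theorem nx_nx_ne (ω : Cfg) (e : Ed) : nx ω (nx ω e) ≠ e := by
  intro h
  have h1 := tlv_nx ω (nx ω e)
  rw [h, hdv_eq, tlv_nx, hdv_eq] at h1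
  have h2 := hd4_nx ω e
  have h3 : trn ω e = 1 ∨ trn ω e = -1 := by
    unfold trn; split_ifs <;> simp
  have h4 := congrArg Prod.fst h1
  have h5 := congrArg Prod.snd h1
  simp only [vec, Prod.fst_add, Prod.snd_add] at h4 h5
  have c1 := head_cases (hd4 e)
  have c2 := head_cases (hd4 (nx ω e))
  omega

theorem iter_mem {ω : Cfg} {ℓ : Finset Ed} (h : IsLoop ω ℓ) {e : Ed} (he : e ∈ ℓ) (n : ℕ) :
    (nx ω)^[n] e ∈ ℓ := by
  induction n with
  | zero => exact he
  | succ n ih => rw [Function.iterate_succ_apply']; exact h.nx_mem ih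

/-- Every loop is the set of the first `n` edges of the interface from any of its edges. -/
theorem exists_period {ω : Cfg} {ℓ : Finset Ed} (h : IsLoop ω ℓ) {e : Ed} (he : e ∈ ℓ) :
    ∃ n : ℕ, 0 < n ∧ (nx ω)^[n] e = e ∧ (∀ k, 0 < k → k < n → (nx ω)^[k] e ≠ e) ∧
      ℓ = (range n).image fun k => (nx ω)^[k] e := by
  classical
  have hex : ∃ m, 0 < m ∧ (nx ω)^[m] e = e := by
    obtain ⟨i, j, hij, hE⟩ : ∃ i j : ℕ, i < j ∧ (nx ω)^[i] e = (nx ω)^[j] e := by
      by_contra hcon
      push Not at hcon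
      have hinj : Function.Injective fun n : ℕ => (⟨(nx ω)^[n] e, iter_mem h he n⟩ : ℓ) := by
        intro i j hij
        rcases lt_trichotomy i j with h' | h' | h'
        · exact absurd (congrArg Subtype.val hij) (hcon i j h')
        · exact h'
        · exact absurd (congrArg Subtype.val hij).symm (hcon j i h')
      exact not_injective_infinite_finite _ hinj
    refine ⟨j - i, by omega, ?_⟩
    have h2 : (nx ω)^[i] ((nx ω)^[j - i] e) = (nx ω)^[i] e := by
      rw [← Function.iterate_add_apply, show i + (j - i) = j by omega, hE]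
    exact ((s_nx ω).1.iterate i) h2
  refine ⟨Nat.find hex, (Nat.find_spec hex).1, (Nat.find_spec hex).2, fun k hk hk' hE => ?_, ?_⟩
  · exact Nat.find_min hex hk' ⟨hk, hE⟩
  · set n := Nat.find hex with hn
    have hn0 : 0 < n := (Nat.find_spec hex).1
    have hnE : (nx ω)^[n] e = e := (Nat.find_spec hex).2
    apply Finset.Subset.antisymm
    · intro x hx
      refine h.induct (p := fun x => x ∈ (range n).image fun k => (nx ω)^[k] e)
        (fun y _ hy => ?_) he hx (Finset.mem_image.mpr ⟨0, Finset.mem_range.mpr hn0, rfl⟩)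
      obtain ⟨k, hk, rfl⟩ := Finset.mem_image.mp hy
      rw [Finset.mem_range] at hk
      rw [← Function.iterate_succ_apply' (nx ω)]
      rcases Nat.lt_or_ge (k + 1) n with h1 | h1
      · exact Finset.mem_image.mpr ⟨k + 1, Finset.mem_range.mpr h1, rfl⟩
      · refine Finset.mem_image.mpr ⟨0, Finset.mem_range.mpr hn0, ?_⟩
        rw [show k.succ = n by omega, hnE]
        rfl
    · intro x hx
      obtain ⟨k, -, rfl⟩ := Finset.mem_image.mp hx
      exact iter_mem h he k

/-- A2 (i): the Umlaufsatz for loops. -/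
theorem turn_loop {ω : Cfg} {ℓ : Finset Ed} (h : IsLoop ω ℓ) :
    (∑ e ∈ ℓ, trn ω e = 4 ∧ ∀ s, W ℓ s = 0 ∨ W ℓ s = 1) ∨
    (∑ e ∈ ℓ, trn ω e = -4 ∧ ∀ s, W ℓ s = 0 ∨ W ℓ s = -1) := by
  classical
  obtain ⟨e, he⟩ := h.nonempty
  obtain ⟨n, hn0, hnE, hmin, hℓ⟩ := exists_period h he
  have hiter : ∀ i, (nx ω)^[i + n] e = (nx ω)^[i] e := by
    intro i; rw [Function.iterate_add_apply, hnE]
  have hinj : ∀ k, 0 < k → k < n → ∀ i, (nx ω)^[i + k] e ≠ (nx ω)^[i] e := by
    intro k hk hk' i hE
    rw [Function.iterate_add_apply] at hE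
    exact hmin k hk hk' (((s_nx ω).1.iterate i) hE)
  have hn3 : 3 ≤ n := by
    by_contra hcon
    rcases (by omega : n = 1 ∨ n = 2) with h1 | h1
    · rw [h1] at hnE
      exact nx_ne ω e hnE
    · rw [h1] at hnE
      exact nx_nx_ne ω e hnE
  have hcl : IsClosed (fun i => tlv ((nx ω)^[i] e)) (dl ω e) n :=
    { toIsPath := isPath ω e
      hn := hn3
      hv := fun i => by simp only [hiter]
      hd := fun i => by rw [dl_mod, dl_mod, hiter]
      inj := fun k hk hk' i hE => by
        rw [mid_eq, mid_eq] at hE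
        exact hinj k hk hk' i (me_injective hE) }
  have hsum : ∑ e ∈ ℓ, trn ω e = dl ω e n - dl ω e 0 := by
    rw [hℓ, Finset.sum_image]
    · simp [dl]
    · intro i hi j hj hij
      simp only [Finset.coe_range, Set.mem_Iio] at hi hj
      rcases lt_trichotomy i j with h' | h' | h'
      · exfalso
        have := hinj (j - i) (by omega) (by omega) i
        rw [show i + (j - i) = j by omega] at this
        exact this hij.symm
      · exact h'
      · exfalso
        have := hinj (i - j) (by omega) (by omega) j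
        rw [show j + (i - j) = i by omega] at this
        exact this hij
  obtain ⟨k, hk, hlow, hdy, hT⟩ := turn_closed hcl
  set ek := (nx ω)^[k] e with hek
  have hekℓ : ek ∈ ℓ := iter_mem h he k
  have hlow' : ∀ x ∈ ℓ, (me ek).2 ≤ (me x).2 := by
    intro x hx
    rw [hℓ] at hx
    obtain ⟨i, -, rfl⟩ := Finset.mem_image.mp hx
    have := hlow i
    rwa [mid_eq, mid_eq] at this
  rw [dy_congr (dl_mod ω e k), ← hek] at hdy
  rw [dx_congr (dl_mod ω e k), ← hek] at hT
  rw [hsum, hT]
  clear_value ek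
  rcases ek with ⟨x, y⟩ | ⟨x, y⟩
  · -- all visited squares have second coordinate at least `y`
    have hbelow : ∀ s : ℤ × ℤ, s.2 ≤ y → W ℓ s = 0 := by
      intro s hs
      refine W_zero_right ℓ fun v hv hv2 => ?_
      exfalso
      have := hlow' _ hv
      simp only [me] at this
      omega
    have hj := s_jump ω ℓ h (Sum.inl (x, y))
    rw [if_pos hekℓ] at hj
    by_cases hev : Even (x + y)
    · left
      have h1 : W ℓ (rs (Sum.inl (x, y))) = 0 := hbelow _ (by simp [rs, hev])
      refine ⟨by simp [hd4, hev, dx], ?_⟩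
      rcases (s_sign ω ℓ h).1 with h2 | h2
      · exact h2
      · have := h2 (ls (Sum.inl (x, y)))
        omega
    · right
      have h1 : W ℓ (ls (Sum.inl (x, y))) = 0 := hbelow _ (by simp [ls, hev])
      refine ⟨by simp [hd4, hev, dx], ?_⟩
      rcases (s_sign ω ℓ h).1 with h2 | h2
      · have := h2 (rs (Sum.inl (x, y)))
        omega
      · exact h2
  · exfalso
    by_cases hev : Even (x + y) <;> simp [hd4, hev, dy] at hdy

/-- Shift of a medial edge. -/
def sh (p : ℤ × ℤ) : Ed → Ed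
  | Sum.inl v => Sum.inl (v + p)
  | Sum.inr v => Sum.inr (v + p)

theorem even_shift {p : ℤ × ℤ} (hev : Even (p.1 + p.2)) (v : ℤ × ℤ) :
    Even ((v + p).1 + (v + p).2) ↔ Even (v.1 + v.2) := by
  simp only [Prod.fst_add, Prod.snd_add]
  rw [Int.even_iff] at hev
  rw [Int.even_iff, Int.even_iff]
  omega

theorem nx_sh {ω : Cfg} {p : ℤ × ℤ} (hev : Even (p.1 + p.2)) (hω : ∀ v, ω (v + p) = ω v) (e : Ed) :
    nx ω (sh p e) = sh p (nx ω e) := by
  obtain ⟨a, b⟩ := p
  rcases e with ⟨x, y⟩ | ⟨x, y⟩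
  · have h1 := even_shift hev (x, y)
    have h2 := hω (x + 1, y)
    have h3 := hω (x, y)
    simp only [Prod.mk_add_mk] at h1 h2 h3
    simp only [sh, nx, Prod.mk_add_mk, h1]
    rw [show x + a + 1 = x + 1 + a by ring, h2, h3]
    split_ifs <;> simp only [Prod.mk_add_mk] <;> congr 2 <;> ring
  · have h1 := even_shift hev (x, y)
    have h2 := hω (x, y + 1)
    have h3 := hω (x, y)
    simp only [Prod.mk_add_mk] at h1 h2 h3
    simp only [sh, nx, Prod.mk_add_mk, h1]
    rw [show y + b + 1 = y + 1 + b by ring, h2, h3]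
    split_ifs <;> simp only [Prod.mk_add_mk] <;> congr 2 <;> ring

theorem hd4_sh {p : ℤ × ℤ} (hev : Even (p.1 + p.2)) (e : Ed) : hd4 (sh p e) = hd4 e := by
  rcases e with v | v <;> simp only [sh, hd4, even_shift hev]

theorem tlv_sh {p : ℤ × ℤ} (hev : Even (p.1 + p.2)) (e : Ed) : tlv (sh p e) = tlv e + p := by
  rcases e with v | v <;> simp only [sh, tlv, even_shift hev] <;> split_ifs
  · rfl
  · ext <;> simp; ring
  · ext <;> simp; ring
  · rfl

theorem me_sh (p : ℤ × ℤ) (e : Ed) : me (sh p e) = me e + (2 * p.1, 2 * p.2) := by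
  rcases e with v | v <;> simp only [sh, me] <;> ext <;> simp <;> ring

/-- A2 (ii): the total turning of an interface over a period with nonzero displacement is zero. -/
theorem turn_periodic {ω : Cfg} {p : ℤ × ℤ} (hp : p ≠ 0) (hev : Even (p.1 + p.2))
    (hω : ∀ v, ω (v + p) = ω v) {n : ℕ} (hn : 1 ≤ n) {e : Ed} (he : (nx ω)^[n] e = sh p e) :
    ∑ k ∈ range n, trn ω ((nx ω)^[k] e) = 0 := by
  have hcomm : ∀ (i : ℕ) (x : Ed), (nx ω)^[i] (sh p x) = sh p ((nx ω)^[i] x) := by
    intro i
    induction i with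
    | zero => intro x; rfl
    | succ i ih => intro x; rw [Function.iterate_succ_apply, nx_sh hev hω, ih,
        Function.iterate_succ_apply]
  have hiter : ∀ i, (nx ω)^[i + n] e = sh p ((nx ω)^[i] e) := by
    intro i; rw [Function.iterate_add_apply, he, hcomm]
  -- no return
  have hmul : ∀ j : ℕ, me ((nx ω)^[n * j] e) = me e + (2 * (j * p.1), 2 * (j * p.2)) := by
    intro j
    induction j with
    | zero => simp
    | succ j ih =>
      rw [Nat.mul_succ, hiter, me_sh, ih]
      ext <;> simp <;> ring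
  have hnoret : ∀ k, 0 < k → (nx ω)^[k] e ≠ e := by
    intro k hk hE
    have h1 : ∀ m, (nx ω)^[k * m] e = e := by
      intro m
      induction m with
      | zero => rfl
      | succ m ih => rw [Nat.mul_succ, Function.iterate_add_apply, hE, ih]
    have h2 := hmul k
    rw [mul_comm, h1] at h2
    apply hp
    have h3 := congrArg Prod.fst h2
    have h4 := congrArg Prod.snd h2
    simp only [Prod.fst_add, Prod.snd_add] at h3 h4
    have hk' : (k : ℤ) ≠ 0 := by exact_mod_cast hk.ne'
    have h5 : (k : ℤ) * p.1 = 0 := by linarith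
    have h6 : (k : ℤ) * p.2 = 0 := by linarith
    exact Prod.ext ((mul_eq_zero.mp h5).resolve_left hk') ((mul_eq_zero.mp h6).resolve_left hk')
  have hinj : ∀ k, 1 ≤ k → k ≤ n → ∀ i, mid (fun i => tlv ((nx ω)^[i] e)) (dl ω e) (i + k) ≠
      mid (fun i => tlv ((nx ω)^[i] e)) (dl ω e) i := by
    intro k hk _ i hE
    rw [mid_eq, mid_eq] at hE
    have := me_injective hE
    rw [Function.iterate_add_apply] at this
    exact hnoret k hk (((s_nx ω).1.iterate i) this)
  have hn2 : 2 ≤ n := by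
    by_contra hcon
    have h1 : n = 1 := by omega
    rw [h1] at he
    rcases e with v | v <;> simp only [Function.iterate_one, nx, sh] at he <;>
      split_ifs at he
  have h1 := turn_open (isPath ω e) hn2 (P := p) (fun i => by
      simp only [hiter, tlv_sh hev]) (fun i => by
      rw [dl_mod, dl_mod, hiter, hd4_sh hev]) hinj
  have h2 : dl ω e n - dl ω e 0 = ∑ k ∈ range n, trn ω ((nx ω)^[k] e) := by simp [dl]
  rw [← h2, h1, sub_self]

end Vale.Agent.P167
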