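import Vale.Agent.P167.Iface

/-!
# P167, block A3a: loops in the plane
-/

namespace Vale.Agent.P167

open Finset
open Vale.Agent.P145.FB (PStep PConn)

/-- The previous medial edge of the interface. -/
def pv (ω : Cfg) : Ed → Ed
  | Sum.inl u =>
    if Even (u.1 + u.2) then (if ω u then Sum.inr (u.1, u.2 - 1) else Sum.inr u)
    else (if ω (u.1 + 1, u.2) then Sum.inr (u.1 + 1, u.2) else Sum.inr (u.1 + 1, u.2 - 1))
  | Sum.inr u =>
    if Even (u.1 + u.2) then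
      (if ω (u.1, u.2 + 1) then Sum.inl (u.1 - 1, u.2 + 1) else Sum.inl (u.1, u.2 + 1))
    else (if ω u then Sum.inl u else Sum.inl (u.1 - 1, u.2))

theorem ev1 {x y : ℤ} : Even (x + 1 + y) ↔ ¬ Even (x + y) := by
  rw [Int.even_iff, Int.even_iff]; omega

theorem ev2 {x y : ℤ} : Even (x + (y + 1)) ↔ ¬ Even (x + y) := by
  rw [Int.even_iff, Int.even_iff]; omega

theorem ev3 {x y : ℤ} : Even (x - 1 + y) ↔ ¬ Even (x + y) := by
  rw [Int.even_iff, Int.even_iff]; omega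

theorem ev4 {x y : ℤ} : Even (x + (y - 1)) ↔ ¬ Even (x + y) := by
  rw [Int.even_iff, Int.even_iff]; omega

theorem pv_nx (ω : Cfg) (e : Ed) : pv ω (nx ω e) = e := by
  rcases e with ⟨x, y⟩ | ⟨x, y⟩
  · by_cases h : Even (x + y)
    · cases h1 : ω (x + 1, y) <;> simp [nx, pv, h, h1, ev1, ev2, ev3, ev4]
    · cases h1 : ω (x, y) <;> simp [nx, pv, h, h1, ev1, ev2, ev3, ev4]
  · by_cases h : Even (x + y)
    · cases h1 : ω (x, y) <;> simp [nx, pv, h, h1, ev1, ev2, ev3, ev4]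
    · cases h1 : ω (x, y + 1) <;> simp [nx, pv, h, h1, ev1, ev2, ev3, ev4]

theorem nx_pv (ω : Cfg) (e : Ed) : nx ω (pv ω e) = e := by
  rcases e with ⟨x, y⟩ | ⟨x, y⟩
  · by_cases h : Even (x + y)
    · cases h1 : ω (x, y) <;> simp [nx, pv, h, h1, ev1, ev2, ev3, ev4]
    · cases h1 : ω (x + 1, y) <;> simp [nx, pv, h, h1, ev1, ev2, ev3, ev4]
  · by_cases h : Even (x + y)
    · cases h1 : ω (x, y + 1) <;> simp [nx, pv, h, h1, ev1, ev2, ev3, ev4]
    · cases h1 : ω (x, y) <;> simp [nx, pv, h, h1, ev1, ev2, ev3, ev4]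

/-- A3.1 -/
theorem s_nx : S_nx := fun ω =>
  ⟨Function.LeftInverse.injective (g := pv ω) (pv_nx ω),
    Function.RightInverse.surjective (g := pv ω) (nx_pv ω)⟩

theorem tlv_nx (ω : Cfg) (e : Ed) : tlv (nx ω e) = hdv e := by
  rcases e with ⟨x, y⟩ | ⟨x, y⟩
  · by_cases h : Even (x + y)
    · cases h1 : ω (x + 1, y) <;> simp [nx, tlv, hdv, h, h1, ev1, ev2, ev3, ev4]
    · cases h1 : ω (x, y) <;> simp [nx, tlv, hdv, h, h1, ev1, ev2, ev3, ev4]
  · by_cases h : Even (x + y)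
    · cases h1 : ω (x, y) <;> simp [nx, tlv, hdv, h, h1, ev1, ev2, ev3, ev4]
    · cases h1 : ω (x, y + 1) <;> simp [nx, tlv, hdv, h, h1, ev1, ev2, ev3, ev4]

/-- At an open square the interface turns right around the dual site. -/
theorem rs_nx {ω : Cfg} {e : Ed} (h0 : ω (hdv e) = true) : rs (nx ω e) = rs e := by
  rcases e with ⟨x, y⟩ | ⟨x, y⟩
  · by_cases h : Even (x + y)
    · simp only [hdv, h, if_true] at h0
      simp [nx, rs, h, h0, ev1, ev2, ev3, ev4]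
    · simp only [hdv, h, if_false] at h0
      simp [nx, rs, h, h0, ev1, ev2, ev3, ev4]
  · by_cases h : Even (x + y)
    · simp only [hdv, h, if_true] at h0
      simp [nx, rs, h, h0, ev1, ev2, ev3, ev4]
    · simp only [hdv, h, if_false] at h0
      simp [nx, rs, h, h0, ev1, ev2, ev3, ev4]

/-- At a closed square the interface turns left around the primal site. -/
theorem ls_nx {ω : Cfg} {e : Ed} (h0 : ω (hdv e) = false) : ls (nx ω e) = ls e := by
  rcases e with ⟨x, y⟩ | ⟨x, y⟩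
  · by_cases h : Even (x + y)
    · simp only [hdv, h, if_true] at h0
      simp [nx, ls, h, h0, ev1, ev2, ev3, ev4]
    · simp only [hdv, h, if_false] at h0
      simp [nx, ls, h, h0, ev1, ev2, ev3, ev4]
  · by_cases h : Even (x + y)
    · simp only [hdv, h, if_true] at h0
      simp [nx, ls, h, h0, ev1, ev2, ev3, ev4]
    · simp only [hdv, h, if_false] at h0
      simp [nx, ls, h, h0, ev1, ev2, ev3, ev4]

/-- `nx` at an edge depends on the configuration at its head only. -/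
theorem nx_congr {ω ω' : Cfg} {e : Ed} (h0 : ω (hdv e) = ω' (hdv e)) : nx ω e = nx ω' e := by
  rcases e with ⟨x, y⟩ | ⟨x, y⟩ <;> by_cases h : Even (x + y) <;>
    simp only [hdv, h, if_true, if_false] at h0 <;> simp only [nx, h, if_true, if_false, h0]

/-! ### Orbits -/

variable {ω : Cfg} {ℓ : Finset Ed}

theorem IsLoop.nx_mem (h : IsLoop ω ℓ) {e : Ed} (he : e ∈ ℓ) : nx ω e ∈ ℓ := by
  obtain ⟨e0, h0⟩ := h
  obtain ⟨n, rfl⟩ := (h0 e).mp he
  exact (h0 _).mpr ⟨n + 1, Function.iterate_succ_apply' _ _ _⟩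

theorem IsLoop.image (h : IsLoop ω ℓ) : ℓ.image (nx ω) = ℓ := by
  apply Finset.eq_of_subset_of_card_le
  · intro e he
    obtain ⟨e', he', rfl⟩ := Finset.mem_image.mp he
    exact h.nx_mem he'
  · rw [Finset.card_image_of_injective _ (s_nx ω).1]

theorem IsLoop.nx_mem_iff (h : IsLoop ω ℓ) {e : Ed} : nx ω e ∈ ℓ ↔ e ∈ ℓ := by
  refine ⟨fun he => ?_, h.nx_mem⟩
  rw [← h.image] at he
  obtain ⟨e', he', h'⟩ := Finset.mem_image.mp he
  rwa [← (s_nx ω).1 h']

theorem IsLoop.pv_mem_iff (h : IsLoop ω ℓ) {e : Ed} : pv ω e ∈ ℓ ↔ e ∈ ℓ := by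
  rw [← h.nx_mem_iff, nx_pv]

theorem IsLoop.nonempty (h : IsLoop ω ℓ) : ℓ.Nonempty := by
  obtain ⟨e0, h0⟩ := h
  exact ⟨e0, (h0 e0).mpr ⟨0, rfl⟩⟩

/-- A property which is preserved by `nx` in the loop and holds somewhere holds everywhere. -/
theorem IsLoop.induct (h : IsLoop ω ℓ) {p : Ed → Prop} (hp : ∀ e ∈ ℓ, p e → p (nx ω e)) {e e' : Ed}
    (he : e ∈ ℓ) (he' : e' ∈ ℓ) (h1 : p e) : p e' := by
  classical
  -- the elements of the orbit of `e`
  have key : ∀ n, (nx ω)^[n] e ∈ ℓ ∧ p ((nx ω)^[n] e) := by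
    intro n
    induction n with
    | zero => exact ⟨he, h1⟩
    | succ n ih =>
      rw [Function.iterate_succ_apply']
      exact ⟨h.nx_mem ih.1, hp _ ih.1 ih.2⟩
  obtain ⟨e0, h0⟩ := h
  obtain ⟨a, ha⟩ := (h0 e).mp he
  obtain ⟨b, hb⟩ := (h0 e').mp he'
  -- periodicity of `e0`
  obtain ⟨m, hm, hper⟩ : ∃ m, 0 < m ∧ (nx ω)^[m] e0 = e0 := by
    obtain ⟨i, j, hij, hE⟩ : ∃ i j : ℕ, i < j ∧ (nx ω)^[i] e0 = (nx ω)^[j] e0 := by
      by_contra hcon
      push Not at hcon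
      have hinj : Function.Injective fun n : ℕ => (⟨(nx ω)^[n] e0, (h0 _).mpr ⟨n, rfl⟩⟩ : ℓ) := by
        intro i j hij
        rcases lt_trichotomy i j with h' | h' | h'
        · exact absurd (congrArg Subtype.val hij) (hcon i j h')
        · exact h'
        · exact absurd (congrArg Subtype.val hij).symm (hcon j i h')
      exact not_injective_infinite_finite _ hinj
    refine ⟨j - i, by omega, ?_⟩
    have h2 : (nx ω)^[i] ((nx ω)^[j - i] e0) = (nx ω)^[i] e0 := by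
      rw [← Function.iterate_add_apply, show i + (j - i) = j by omega, hE]
    exact ((s_nx ω).1.iterate i) h2
  have hper' : ∀ k, (nx ω)^[m * k] e0 = e0 := by
    intro k
    induction k with
    | zero => rfl
    | succ k ih => rw [Nat.mul_succ, Function.iterate_add_apply, hper, ih]
  have h3 : (nx ω)^[b + (m * a - a)] e = e' := by
    rw [← ha, ← Function.iterate_add_apply, show b + (m * a - a) + a = b + m * a by
      have : a ≤ m * a := Nat.le_mul_of_pos_left a hm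
      omega, Function.iterate_add_apply, hper', hb]
  rw [← h3]
  exact (key _).2

theorem IsLoop.eq_of_mem {ℓ' : Finset Ed} (h : IsLoop ω ℓ) (h' : IsLoop ω ℓ') {e : Ed} (he : e ∈ ℓ)
    (he' : e ∈ ℓ') : ℓ = ℓ' := by
  have key : ∀ {ℓ ℓ' : Finset Ed}, IsLoop ω ℓ → IsLoop ω ℓ' → e ∈ ℓ → e ∈ ℓ' → ℓ ⊆ ℓ' := by
    intro ℓ ℓ' h h' he he' x hx
    exact h.induct (p := fun e => e ∈ ℓ') (fun e _ h1 => h'.nx_mem h1) he hx he'
  exact Finset.Subset.antisymm (key h h' he he') (key h' h he' he)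

/-! ### Locality and connectedness -/

/-- A3.7 -/
theorem s_loc : S_loc := by
  intro ω ω' ℓ h hag
  have hag' : ∀ e ∈ ℓ, nx ω e = nx ω' e := fun e he =>
    nx_congr (hag _ (Finset.mem_image_of_mem _ he))
  obtain ⟨e0, h0⟩ := id h
  refine ⟨e0, fun e' => ?_⟩
  have he0 : e0 ∈ ℓ := (h0 e0).mpr ⟨0, rfl⟩
  have key : ∀ n, (nx ω)^[n] e0 = (nx ω')^[n] e0 := by
    intro n
    induction n with
    | zero => rfl
    | succ n ih =>
      rw [Function.iterate_succ_apply', Function.iterate_succ_apply', ← ih]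
      exact hag' _ ((h0 _).mpr ⟨n, rfl⟩)
  rw [h0]
  simp only [key]

theorem tlv_adj (e : Ed) : |(tlv e).1 - (hdv e).1| + |(tlv e).2 - (hdv e).2| = 1 := by
  rcases e with ⟨x, y⟩ | ⟨x, y⟩ <;> by_cases h : Even (x + y) <;> simp [tlv, hdv, h]

/-- A3.8 -/
theorem s_con : S_con := by
  rintro ω ℓ h S ⟨v, hv, hvS⟩ ⟨v', hv', hvS'⟩
  obtain ⟨e, he, rfl⟩ := Finset.mem_image.mp hv
  obtain ⟨e', he', rfl⟩ := Finset.mem_image.mp hv'
  by_contra hcon
  push Not at hcon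
  refine hvS' (h.induct (p := fun e => hdv e ∈ S) (fun e he hS => ?_) he he' hvS)
  by_contra hS'
  have := hcon _ (Finset.mem_image_of_mem _ he) _ (Finset.mem_image_of_mem _ (h.nx_mem he)) hS hS'
  have h2 := tlv_adj (nx ω e)
  rw [tlv_nx] at h2
  exact this h2

theorem tlv_mem (h : IsLoop ω ℓ) {e : Ed} (he : e ∈ ℓ) : tlv e ∈ vs ℓ := by
  rw [← nx_pv ω e, tlv_nx]
  exact Finset.mem_image_of_mem _ (h.pv_mem_iff.mpr he)

/-- Conservation. -/
theorem IsLoop.sum_eq (h : IsLoop ω ℓ) (χ : ℤ × ℤ → ℤ) : ∑ e ∈ ℓ, (χ (hdv e) - χ (tlv e)) = 0 := by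
  rw [Finset.sum_sub_distrib]
  have h1 : ∑ e ∈ ℓ, χ (tlv e) = ∑ e ∈ ℓ.image (nx ω), χ (tlv e) := by rw [h.image]
  rw [h1, Finset.sum_image (fun _ _ _ _ h' => (s_nx ω).1 h')]
  simp only [tlv_nx, sub_self]

end Vale.Agent.P167
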