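import Vale.Agent.P167.Top.Turn
import Vale.Agent.P167.H685.Flow

/-!
# P167, block A3: flows and the mass surrounded by a loop
-/

namespace Vale.Agent.P167

open Finset
open Vale.Agent.P167.H685 (dv tsum_parts_up tsum_parts_right summ_up summ_right)

/-- Summation by parts for an edge function `J` which is the jump of `H`. -/
theorem sum_jump {J g : Ed → ℝ} {H : ℤ × ℤ → ℝ} (h1 : ∀ x y, J (Sum.inl (x, y)) = H (x, y) - H (x, y - 1))
    (h2 : ∀ x y, J (Sum.inr (x, y)) = H (x - 1, y) - H (x, y)) (hfin : g.support.Finite) :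
    ∑' e, g e * J e = ∑' v, H v * dv g v := by
  have f1 : (fun v => g (Sum.inl v)).support.Finite :=
    Set.Finite.subset (hfin.preimage Sum.inl_injective.injOn) fun v hv => hv
  have f2 : (fun v => g (Sum.inr v)).support.Finite :=
    Set.Finite.subset (hfin.preimage Sum.inr_injective.injOn) fun v hv => hv
  have e1 : ∑' e, g e * J e = (∑' v : ℤ × ℤ, g (Sum.inl v) * J (Sum.inl v))
        + ∑' v : ℤ × ℤ, g (Sum.inr v) * J (Sum.inr v) := by
    refine (HasSum.sum ?_ ?_).tsum_eq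
    · refine Summable.hasSum (summable_of_hasFiniteSupport (f1.subset fun v hv => ?_))
      simp only [Function.mem_support] at hv ⊢; exact left_ne_zero_of_mul hv
    · refine Summable.hasSum (summable_of_hasFiniteSupport (f2.subset fun v hv => ?_))
      simp only [Function.mem_support] at hv ⊢; exact left_ne_zero_of_mul hv
  rw [e1]
  have e2 : ∀ v : ℤ × ℤ, J (Sum.inl v) = H v - H (v.1, v.2 - 1) := fun v => h1 v.1 v.2
  have e3 : ∀ v : ℤ × ℤ, J (Sum.inr v) = H (v.1 - 1, v.2) - H v := fun v => h2 v.1 v.2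
  simp only [e2, e3]
  rw [tsum_parts_up _ H f1, tsum_parts_right _ H f2, ← (summ_up _ H f1).tsum_add (summ_right _ H f2)]
  refine tsum_congr fun v => ?_
  unfold dv
  ring

/-- The flow `g` through a loop is the sum of its divergence weighted by the winding number. -/
theorem sum_flow {ω : Cfg} {ℓ : Finset Ed} (h : IsLoop ω ℓ) {g : Ed → ℝ} (hfin : g.support.Finite) :
    ∑ e ∈ ℓ, g e * sg e = ∑' v : ℤ × ℤ, (W ℓ (v.1 + 1, v.2 + 1) : ℝ) * dv g v := by
  classical
  rw [← sum_jump (J := fun e => if e ∈ ℓ then (sg e : ℝ) else 0) (g := g)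
    (H := fun v => (W ℓ (v.1 + 1, v.2 + 1) : ℝ)) ?_ ?_ hfin]
  · rw [tsum_eq_sum (s := ℓ)]
    · refine Finset.sum_congr rfl fun e he => ?_
      rw [if_pos he]
    · intro e he
      rw [if_neg he, mul_zero]
  · intro x y
    have h1 := W_hor h x y
    simp only [sub_add_cancel]
    have h2 : ((W ℓ (x + 1, y + 1) - W ℓ (x + 1, y) : ℤ) : ℝ) =
        ((if Sum.inl (x, y) ∈ ℓ then sg (Sum.inl (x, y)) else 0 : ℤ) : ℝ) := by rw [h1]
    push_cast at h2
    rw [h2]
  · intro x y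
    have h1 := W_vert ℓ x y
    simp only [sub_add_cancel]
    have h2 : ((W ℓ (x, y + 1) - W ℓ (x + 1, y + 1) : ℤ) : ℝ) =
        ((if Sum.inr (x, y) ∈ ℓ then sg (Sum.inr (x, y)) else 0 : ℤ) : ℝ) := by rw [h1]
    push_cast at h2
    rw [h2]

/-- The winding number of a loop has finite support. -/
theorem W_finite {ω : Cfg} {ℓ : Finset Ed} (h : IsLoop ω ℓ) : (ins ℓ).Finite := by
  obtain ⟨a, ha⟩ := ((vs ℓ).image Prod.fst).bddBelow
  obtain ⟨b, hb⟩ := ((vs ℓ).image Prod.fst).bddAbove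
  obtain ⟨c, hc⟩ := ((vs ℓ).image Prod.snd).bddBelow
  obtain ⟨d, hd⟩ := ((vs ℓ).image Prod.snd).bddAbove
  refine ((Set.finite_Icc a b).prod (Set.finite_Icc c d)).subset fun s hs => ?_
  have := s_out ω ℓ h a b c d (fun v hv => ⟨ha (Finset.mem_coe.mpr (Finset.mem_image_of_mem _ hv)),
    hb (Finset.mem_coe.mpr (Finset.mem_image_of_mem _ hv)),
    hc (Finset.mem_coe.mpr (Finset.mem_image_of_mem _ hv)),
    hd (Finset.mem_coe.mpr (Finset.mem_image_of_mem _ hv))⟩) s hs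
  simp only [Set.mem_prod, Set.mem_Icc]
  omega

/-- The mass surrounded by a loop as a sum against the winding number, and the sign of the total
turning: `∑ f W = ± G f ℓ` with the sign of the total turning `± 4`. -/
theorem G_eq {ω : Cfg} {ℓ : Finset Ed} (h : IsLoop ω ℓ) (f : ℤ × ℤ → ℝ) :
    (∑ e ∈ ℓ, trn ω e = 4 ∧ ∑' s, (W ℓ s : ℝ) * f s = G f ℓ) ∨
    (∑ e ∈ ℓ, trn ω e = -4 ∧ ∑' s, (W ℓ s : ℝ) * f s = -G f ℓ) := by
  classical
  have hfin := W_finite h
  have hG : G f ℓ = ∑ s ∈ hfin.toFinset, f s := by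
    unfold G
    rw [finsum_mem_eq_finite_toFinset_sum f hfin]
  have hT : ∑' s, (W ℓ s : ℝ) * f s = ∑ s ∈ hfin.toFinset, (W ℓ s : ℝ) * f s := by
    rw [tsum_eq_sum]
    intro s hs
    have : W ℓ s = 0 := by
      by_contra hne
      exact hs ((Set.Finite.mem_toFinset hfin).mpr hne)
    rw [this]; simp
  rcases turn_loop h with ⟨h1, h2⟩ | ⟨h1, h2⟩
  · left
    refine ⟨h1, ?_⟩
    rw [hT, hG]
    refine Finset.sum_congr rfl fun s hs => ?_
    have h3 : W ℓ s = 1 := (h2 s).resolve_left ((Set.Finite.mem_toFinset hfin).mp hs)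
    rw [h3]; simp
  · right
    refine ⟨h1, ?_⟩
    rw [hT, hG, ← Finset.sum_neg_distrib]
    refine Finset.sum_congr rfl fun s hs => ?_
    have h3 : W ℓ s = -1 := (h2 s).resolve_left ((Set.Finite.mem_toFinset hfin).mp hs)
    rw [h3]; simp

/-- The weight of a loop in the Baxter-Kelland-Wu sum: if `f` is the divergence of the flow `g`
(site `s` = face `s - (1, 1)`), then the weight of the loop is `2 cos (θ + G f ℓ)`. -/
theorem loop_weight {ω : Cfg} {ℓ : Finset Ed} (h : IsLoop ω ℓ) {g : Ed → ℝ}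
    (hfin : g.support.Finite) (θ : ℝ) :
    Real.cos (∑ e ∈ ℓ, (θ / 4 * trn ω e + g e * sg e)) =
      Real.cos (θ + G (fun s => dv g (s.1 - 1, s.2 - 1)) ℓ) := by
  have h1 : ∑ e ∈ ℓ, (θ / 4 * trn ω e + g e * sg e) =
      θ / 4 * ((∑ e ∈ ℓ, trn ω e : ℤ) : ℝ) + ∑' s, (W ℓ s : ℝ) * dv g (s.1 - 1, s.2 - 1) := by
    rw [Finset.sum_add_distrib, ← Finset.mul_sum, sum_flow h hfin]
    push_cast
    congr 1
    let e : ℤ × ℤ ≃ ℤ × ℤ := ⟨fun v => (v.1 + 1, v.2 + 1), fun v => (v.1 - 1, v.2 - 1),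
      fun v => by simp, fun v => by simp⟩
    rw [← e.tsum_eq fun s : ℤ × ℤ => (W ℓ s : ℝ) * dv g (s.1 - 1, s.2 - 1)]
    refine tsum_congr fun v => ?_
    simp [e]
  rw [h1]
  rcases G_eq h (fun s => dv g (s.1 - 1, s.2 - 1)) with ⟨h2, h3⟩ | ⟨h2, h3⟩
  · rw [h2, h3]
    congr 1
    push_cast
    ring
  · rw [h2, h3, ← Real.cos_neg]
    congr 1
    push_cast
    ring

end Vale.Agent.P167
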