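import Mathlib.Tactic
import Mathlib.Algebra.BigOperators.Intervals

/-! The discrete Umlaufsatz (Hopf's secant argument) for paths of lattice points `M 0, M 1, ...`
with diagonal steps. -/

namespace Vale.Agent.P167.Top

open Finset

/-- Signed number of crossings of the positive `x`-axis by a step from `a` to `b`. -/
def kap (a b : ℤ × ℤ) : ℤ :=
  (if a.2 < 0 ∧ 0 ≤ b.2 ∧ 0 < b.1 then 1 else 0) - (if b.2 < 0 ∧ 0 ≤ a.2 ∧ 0 < a.1 then 1 else 0)

theorem kap_anti (a b : ℤ × ℤ) : kap a b + kap b a = 0 := by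
  unfold kap; ring

theorem kap_pos {a b : ℤ × ℤ} (ha : 0 ≤ a.2) (hb : 0 ≤ b.2) : kap a b = 0 := by
  unfold kap
  rw [if_neg (by omega), if_neg (by omega), sub_zero]

theorem kap_neg {a b : ℤ × ℤ} (ha : a.2 < 0) (hb : b.2 < 0) : kap a b = 0 := by
  unfold kap
  rw [if_neg (by omega), if_neg (by omega), sub_zero]

theorem kap_up {a b : ℤ × ℤ} (ha : a.2 < 0) (hb : 0 ≤ b.2) :
    kap a b = if 0 < b.1 then 1 else 0 := by
  unfold kap
  rw [if_neg (c := b.2 < 0 ∧ _) (by omega), sub_zero]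
  simp only [ha, hb, true_and]

theorem kap_down {a b : ℤ × ℤ} (ha : 0 ≤ a.2) (hb : b.2 < 0) :
    kap a b = if 0 < a.1 then -1 else 0 := by
  unfold kap
  rw [if_neg (c := a.2 < 0 ∧ _) (by omega)]
  simp only [ha, hb, true_and]
  split_ifs <;> rfl

/-- A diagonal step. -/
def Diag (s : ℤ × ℤ) : Prop := (s.1 = 1 ∨ s.1 = -1) ∧ (s.2 = 1 ∨ s.2 = -1)

theorem cell_aux (x y s1 s2 t1 t2 : ℤ) (hs1 : s1 = 1 ∨ s1 = -1) (hs2 : s2 = 1 ∨ s2 = -1)
    (ht1 : t1 = 1 ∨ t1 = -1) (ht2 : t2 = 1 ∨ t2 = -1) (hpar : (x - y) % 2 = 0)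
    (h1 : x ≠ 0 ∨ y ≠ 0) (h2 : x + s1 ≠ 0 ∨ y + s2 ≠ 0)
    (h3 : x + s1 - t1 ≠ 0 ∨ y + s2 - t2 ≠ 0) (h4 : x - t1 ≠ 0 ∨ y - t2 ≠ 0) :
    kap (x, y) (x + s1, y + s2) + kap (x + s1, y + s2) (x + s1 - t1, y + s2 - t2) =
      kap (x, y) (x - t1, y - t2) + kap (x - t1, y - t2) (x + s1 - t1, y + s2 - t2) := by
  rcases (by omega : 2 ≤ y ∨ y ≤ -3 ∨ y = -2 ∨ y = -1 ∨ y = 0 ∨ y = 1) with
    hy | hy | hy | hy | hy | hy
  · rw [kap_pos (by simp only; omega) (by simp only; omega),
      kap_pos (by simp only; omega) (by simp only; omega),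
      kap_pos (by simp only; omega) (by simp only; omega),
      kap_pos (by simp only; omega) (by simp only; omega)]
  · rw [kap_neg (by simp only; omega) (by simp only; omega),
      kap_neg (by simp only; omega) (by simp only; omega),
      kap_neg (by simp only; omega) (by simp only; omega),
      kap_neg (by simp only; omega) (by simp only; omega)]
  all_goals
    subst hy
    unfold kap
    rcases hs1 with rfl | rfl <;> rcases hs2 with rfl | rfl <;> rcases ht1 with rfl | rfl <;>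
      rcases ht2 with rfl | rfl <;> norm_num at * <;> try (split_ifs <;> omega)

/-- `cell_aux` for four vectors. -/
theorem cell {a b c d : ℤ × ℤ} (hs : Diag (b - a)) (ht : Diag (a - d)) (hc : c = b + d - a)
    (hpar : (a.1 - a.2) % 2 = 0) (h1 : a ≠ 0) (h2 : b ≠ 0) (h3 : c ≠ 0) (h4 : d ≠ 0) :
    kap a b + kap b c = kap a d + kap d c := by
  have hc' : c = (a.1 + (b - a).1 - (a - d).1, a.2 + (b - a).2 - (a - d).2) := by
    rw [hc]; ext <;> simp only [Prod.fst_add, Prod.snd_add, Prod.fst_sub, Prod.snd_sub] <;> ring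
  have hb' : b = (a.1 + (b - a).1, a.2 + (b - a).2) := by
    ext <;> simp only [Prod.fst_sub, Prod.snd_sub] <;> ring
  have hd' : d = (a.1 - (a - d).1, a.2 - (a - d).2) := by
    ext <;> simp only [Prod.fst_sub, Prod.snd_sub] <;> ring
  have h := cell_aux a.1 a.2 (b - a).1 (b - a).2 (a - d).1 (a - d).2 hs.1 hs.2 ht.1 ht.2 hpar
  rw [← hc', ← hb', ← hd'] at h
  refine h ?_ ?_ ?_ ?_
  · by_contra hh; push Not at hh; exact h1 (Prod.ext hh.1 hh.2)
  · by_contra hh; push Not at hh
    exact h2 (hb'.trans (Prod.ext hh.1 hh.2))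
  · by_contra hh; push Not at hh
    exact h3 (hc'.trans (Prod.ext hh.1 hh.2))
  · by_contra hh; push Not at hh
    exact h4 (hd'.trans (Prod.ext hh.1 hh.2))

section Path

variable {M : ℕ → ℤ × ℤ}

/-- The secant from `M i` to `M j`. -/
abbrev sec (M : ℕ → ℤ × ℤ) (i j : ℕ) : ℤ × ℤ := M j - M i

theorem parity (hD : ∀ i, Diag (M (i + 1) - M i)) (i k : ℕ) :
    ((sec M i (i + k)).1 - (sec M i (i + k)).2) % 2 = 0 := by
  induction k with
  | zero => simp
  | succ k ih =>
    have h := hD (i + k)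
    obtain ⟨h1 | h1, h2 | h2⟩ := h <;>
      simp only [sec, Prod.fst_sub, Prod.snd_sub] at ih h1 h2 ⊢ <;>
      rw [show i + (k + 1) = i + k + 1 by ring] <;> omega

/-- The crossings along the path of secants `(i, i + k)`, `i = 0, ..., n - 1`. -/
def S (M : ℕ → ℤ × ℤ) (n k : ℕ) : ℤ :=
  ∑ i ∈ range n, (kap (sec M i (i + k)) (sec M i (i + k + 1)) +
    kap (sec M i (i + k + 1)) (sec M (i + 1) (i + k + 1)))

theorem sec_cell (hD : ∀ i, Diag (M (i + 1) - M i)) {i k : ℕ}
    (h0 : sec M i (i + k) ≠ 0) (h1 : sec M i (i + k + 1) ≠ 0)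
    (h2 : sec M (i + 1) (i + k + 1) ≠ 0) (h3 : sec M (i + 1) (i + k) ≠ 0) :
    kap (sec M i (i + k)) (sec M i (i + k + 1)) +
      kap (sec M i (i + k + 1)) (sec M (i + 1) (i + k + 1)) =
    kap (sec M i (i + k)) (sec M (i + 1) (i + k)) +
      kap (sec M (i + 1) (i + k)) (sec M (i + 1) (i + k + 1)) := by
  refine cell ?_ ?_ ?_ (parity hD i k) h0 h1 h2 h3
  · have := hD (i + k)
    rwa [show sec M i (i + k + 1) - sec M i (i + k) = M (i + k + 1) - M (i + k) by
      simp only [sec]; abel]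
  · have := hD i
    rwa [show sec M i (i + k) - sec M (i + 1) (i + k) = M (i + 1) - M i by
      simp only [sec]; abel]
  · simp only [sec]; abel

theorem sum_shift {n : ℕ} {G : ℕ → ℤ} (h : G n = G 0) :
    ∑ i ∈ range n, G (i + 1) = ∑ i ∈ range n, G i := by
  have h1 := Finset.sum_range_succ' G n
  have h2 := Finset.sum_range_succ G n
  linarith

theorem S_succ (hD : ∀ i, Diag (M (i + 1) - M i)) {n k : ℕ} {P : ℤ × ℤ}
    (hP : ∀ i, M (i + n) = M i + P)
    (h0 : ∀ i, M (i + k) ≠ M i) (h1 : ∀ i, M (i + k + 1) ≠ M i)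
    (h2 : ∀ i, M (i + (k + 1) + 1) ≠ M i) : S M n (k + 1) = S M n k := by
  unfold S
  have e1 : ∀ i, kap (sec M i (i + (k + 1))) (sec M i (i + (k + 1) + 1)) +
      kap (sec M i (i + (k + 1) + 1)) (sec M (i + 1) (i + (k + 1) + 1)) =
      kap (sec M i (i + (k + 1))) (sec M (i + 1) (i + (k + 1))) +
      kap (sec M (i + 1) (i + (k + 1))) (sec M (i + 1) (i + (k + 1) + 1)) := by
    intro i
    refine sec_cell hD ?_ ?_ ?_ ?_
    · exact sub_ne_zero.mpr (h1 i)
    · exact sub_ne_zero.mpr (h2 i)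
    · have := h1 (i + 1)
      rw [show i + 1 + k + 1 = i + (k + 1) + 1 by ring] at this
      exact sub_ne_zero.mpr this
    · have := h0 (i + 1)
      rw [show i + 1 + k = i + (k + 1) by ring] at this
      exact sub_ne_zero.mpr this
  simp only [e1]
  rw [Finset.sum_add_distrib, Finset.sum_add_distrib, add_comm]
  congr 1
  have := sum_shift (n := n) (G := fun i => kap (sec M i (i + k)) (sec M i (i + k + 1))) ?_
  · rw [← this]
    refine Finset.sum_congr rfl fun i _ => ?_
    rw [show i + (k + 1) = i + 1 + k by ring]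
  · simp only [zero_add, sec]
    rw [show n + k + 1 = (k + 1) + n by ring, show n + k = k + n by ring, hP, hP,
      show M n = M 0 + P by simpa using hP 0]
    simp only [add_sub_add_right_eq_sub]

/-- Noncontractible case: all secants are nonzero, the last one is constant. -/
theorem S_open (hD : ∀ i, Diag (M (i + 1) - M i)) {n : ℕ} (hn : 2 ≤ n) {P : ℤ × ℤ}
    (hP : ∀ i, M (i + n) = M i + P) (h0 : ∀ k, 1 ≤ k → k ≤ n → ∀ i, M (i + k) ≠ M i) :
    S M n 1 = 0 := by
  have h1 : ∀ k, 1 ≤ k → k ≤ n - 1 → S M n k = S M n 1 := by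
    intro k hk
    induction k, hk using Nat.le_induction with
    | base => intro; rfl
    | succ k hk ih =>
      intro hk'
      rw [S_succ hD hP (h0 k hk (by omega)) (h0 (k + 1) (by omega) (by omega))
        (h0 (k + 1 + 1) (by omega) (by omega)), ih (by omega)]
  rw [← h1 (n - 1) (by omega) le_rfl]
  unfold S
  have e : ∀ i, sec M i (i + (n - 1) + 1) = P := by
    intro i
    rw [show i + (n - 1) + 1 = i + n by omega]
    simp [sec, hP]
  simp only [e]
  rw [Finset.sum_add_distrib]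
  have e2 : ∀ i, sec M (i + 1) (i + (n - 1) + 1) = sec M (i + 1) (i + 1 + (n - 1)) := by
    intro i; congr 1; omega
  simp only [e2]
  have := sum_shift (n := n) (G := fun i => kap P (sec M i (i + (n - 1)))) (by
    simp only [zero_add, sec]
    rw [show n + (n - 1) = (n - 1) + n by ring, hP, show M n = M 0 + P by simpa using hP 0]
    simp only [add_sub_add_right_eq_sub])
  rw [this, ← Finset.sum_add_distrib]
  refine Finset.sum_eq_zero fun i _ => kap_anti _ _

/-- The crossings in the turn from the step `i` to the step `i + 1`. -/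
def kd (M : ℕ → ℤ × ℤ) (i : ℕ) : ℤ :=
  kap (sec M i (i + 1)) (sec M i (i + 1 + 1)) + kap (sec M i (i + 1 + 1)) (sec M (i + 1) (i + 1 + 1))

theorem S_one (n : ℕ) : S M n 1 = ∑ i ∈ range n, kd M i := rfl

/-- The triangle below the diagonal. -/
theorem triangle (hD : ∀ i, Diag (M (i + 1) - M i)) {n : ℕ}
    (h0 : ∀ i j, i < j → j ≤ n → (i, j) ≠ (0, n) → M j ≠ M i) (m : ℕ) (hm : m + 1 < n) :
    ∑ i ∈ range m, kd M i = ∑ j ∈ range m, kap (sec M 0 (j + 1)) (sec M 0 (j + 1 + 1)) +
      ∑ i ∈ range m, kap (sec M i (m + 1)) (sec M (i + 1) (m + 1)) := by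
  induction m with
  | zero => simp
  | succ m ih =>
    rw [Finset.sum_range_succ, ih (by omega), Finset.sum_range_succ (n := m),
      Finset.sum_range_succ (n := m)]
    have key : ∀ k ≤ m, ∑ i ∈ range k, kap (sec M i (m + 1)) (sec M (i + 1) (m + 1)) +
        kap (sec M k (m + 1)) (sec M k (m + 1 + 1)) = kap (sec M 0 (m + 1)) (sec M 0 (m + 1 + 1)) +
        ∑ i ∈ range k, kap (sec M i (m + 1 + 1)) (sec M (i + 1) (m + 1 + 1)) := by
      intro k hk
      induction k with
      | zero => simp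
      | succ k ihk =>
        rw [Finset.sum_range_succ, Finset.sum_range_succ (n := k)]
        have h1 := ihk (by omega)
        have h2 := sec_cell hD (i := k) (k := m + 1 - k)
        rw [show k + (m + 1 - k) = m + 1 by omega] at h2
        have h3 := h2 (sub_ne_zero.mpr (h0 _ _ (by omega) (by omega) (by simp; omega)))
          (sub_ne_zero.mpr (h0 _ _ (by omega) (by omega) (by simp; omega)))
          (sub_ne_zero.mpr (h0 _ _ (by omega) (by omega) (by simp)))
          (sub_ne_zero.mpr (h0 _ _ (by omega) (by omega) (by simp)))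
        linarith
    have h1 := key m le_rfl
    unfold kd
    linarith

/-- The total number of crossings for a closed path which starts at the lowest point (and the
leftmost of the lowest points). -/
theorem S_closed (hD : ∀ i, Diag (M (i + 1) - M i)) {n : ℕ} (hn : 3 ≤ n)
    (hP : ∀ i, M (i + n) = M i) (h0 : ∀ k, 1 ≤ k → k < n → ∀ i, M (i + k) ≠ M i)
    (hlow : ∀ i, (M 0).2 < (M i).2 ∨ (M 0).2 = (M i).2 ∧ (M 0).1 ≤ (M i).1) :
    ∑ i ∈ range n, kd M i = (M 1 - M 0).1 ∧ (M 1).2 = (M 0).2 + 1 ∧ (M (n - 1)).2 = (M 0).2 + 1 ∧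
      (M (n - 1)).1 - (M 0).1 = -(M 1 - M 0).1 := by
  have h0' : ∀ i j, i < j → j ≤ n → (i, j) ≠ (0, n) → M j ≠ M i := by
    intro i j hij hj hne
    have := h0 (j - i) (by omega) (by
      rcases Nat.lt_or_ge (j - i) n with h | h
      · exact h
      · exfalso
        apply hne
        ext <;> simp <;> omega) i
    rwa [show i + (j - i) = j by omega] at this
  have hMn : M n = M 0 := by simpa using hP 0
  have hD0 := hD 0
  rw [zero_add] at hD0
  have hDn := hD (n - 1)
  rw [show n - 1 + 1 = n by omega, hMn] at hDn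
  have hl1 := hlow 1
  have hln := hlow (n - 1)
  have hne1 : M (n - 1) ≠ M 1 := h0' 1 (n - 1) (by omega) (by omega) (by simp)
  have hne1' : (M (n - 1)).1 ≠ (M 1).1 ∨ (M (n - 1)).2 ≠ (M 1).2 := by
    by_contra hh
    push Not at hh
    exact hne1 (Prod.ext hh.1 hh.2)
  simp only [Diag, Prod.fst_sub, Prod.snd_sub] at hD0 hDn
  have hy1 : (M 1).2 = (M 0).2 + 1 := by omega
  have hyn : (M (n - 1)).2 = (M 0).2 + 1 := by omega
  have hx : (M (n - 1)).1 - (M 0).1 = -((M 1).1 - (M 0).1) := by omega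
  refine ⟨?_, hy1, hyn, by simpa using hx⟩
  obtain ⟨m, rfl⟩ : ∃ m, n = m + 3 := ⟨n - 3, by omega⟩
  have ht := triangle hD h0' (m + 1) (by omega)
  -- the last row
  have hrow : ∀ k, k ≤ m → ∑ i ∈ range k, kap (sec M (i + 1) (m + 2)) (sec M (i + 1 + 1) (m + 2)) +
      kap (sec M (k + 1) (m + 2)) (sec M (k + 1) (m + 3)) =
      kap (sec M 1 (m + 2)) (sec M 1 (m + 3)) +
      ∑ i ∈ range k, kap (sec M (i + 1) (m + 3)) (sec M (i + 1 + 1) (m + 3)) := by
    intro k hk
    induction k with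
    | zero => simp
    | succ k ihk =>
      rw [Finset.sum_range_succ, Finset.sum_range_succ (n := k)]
      have h1 := ihk (by omega)
      have h2 := sec_cell hD (i := k + 1) (k := m + 2 - (k + 1))
      rw [show k + 1 + (m + 2 - (k + 1)) = m + 2 by omega] at h2
      have h3 := h2 (sub_ne_zero.mpr (h0' _ _ (by omega) (by omega) (by simp)))
        (sub_ne_zero.mpr (h0' _ _ (by omega) (by omega) (by simp)))
        (sub_ne_zero.mpr (h0' _ _ (by omega) (by omega) (by simp)))
        (sub_ne_zero.mpr (h0' _ _ (by omega) (by omega) (by simp)))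
      rw [show m + 2 + 1 = m + 3 by ring] at h3
      linarith
  have hr := hrow m le_rfl
  have hV0 : ∑ j ∈ range (m + 1), kap (sec M 0 (j + 1)) (sec M 0 (j + 1 + 1)) = 0 := by
    refine Finset.sum_eq_zero fun j _ => kap_pos ?_ ?_
    · have := hlow (j + 1)
      simp only [sec, Prod.snd_sub]
      omega
    · have := hlow (j + 1 + 1)
      simp only [sec, Prod.snd_sub]
      omega
  have hH0 : ∑ i ∈ range m, kap (sec M (i + 1) (m + 3)) (sec M (i + 1 + 1) (m + 3)) = 0 := by
    refine Finset.sum_eq_zero fun i hi => ?_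
    rw [Finset.mem_range] at hi
    have a1 := hlow (i + 1)
    have a2 := hlow (i + 1 + 1)
    unfold kap
    simp only [sec, hMn, Prod.snd_sub, Prod.fst_sub]
    rw [if_neg, if_neg, sub_zero]
    · omega
    · omega
  rw [Finset.sum_range_succ' (fun i => kap (sec M i (m + 1 + 1)) (sec M (i + 1) (m + 1 + 1))) m]
    at ht
  rw [show m + 3 = (m + 1) + 1 + 1 by ring, Finset.sum_range_succ, Finset.sum_range_succ, ht, hV0]
  have e1 : kd M (m + 1) = kap (sec M (m + 1) (m + 2)) (sec M (m + 1) (m + 3)) +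
      kap (sec M (m + 1) (m + 3)) (sec M (m + 2) (m + 3)) := rfl
  have e2 : kd M (m + 1 + 1) = kap (sec M (m + 2) (m + 3)) (sec M (m + 2) (m + 4)) +
      kap (sec M (m + 2) (m + 4)) (sec M (m + 3) (m + 4)) := rfl
  rw [e1, e2]
  have hM4 : M (m + 4) = M 1 := by rw [show m + 4 = 1 + (m + 3) by ring, hP]
  have hM2 : m + 3 - 1 = m + 2 := by omega
  rw [hM2] at hx hyn hDn hne1'
  simp only [zero_add, show m + 1 + 1 = m + 2 by ring] at hr ⊢
  have hH1 : ∑ i ∈ range m, kap (sec M (i + 1) (m + 2)) (sec M (i + 1 + 1) (m + 2)) +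
      kap (sec M (m + 1) (m + 2)) (sec M (m + 1) (m + 3)) =
      kap (sec M 1 (m + 2)) (sec M 1 (m + 3)) := by
    rw [hr, hH0, add_zero]
  have hH2 : kap (sec M (m + 1) (m + 3)) (sec M (m + 2) (m + 3)) = 0 := by
    have a1 := hlow (m + 1)
    unfold kap
    simp only [sec, hMn, Prod.snd_sub, Prod.fst_sub]
    rw [if_neg, if_neg, sub_zero]
    · omega
    · omega
  have hH3 : kap (sec M 0 (m + 2)) (sec M 1 (m + 2)) = 0 := by
    refine kap_pos ?_ ?_ <;> simp only [sec, Prod.snd_sub] <;> omega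
  have hfin : kap (sec M 1 (m + 2)) (sec M 1 (m + 3)) +
      (kap (sec M (m + 2) (m + 3)) (sec M (m + 2) (m + 4)) +
      kap (sec M (m + 2) (m + 4)) (sec M (m + 3) (m + 4))) = (M 1 - M 0).1 := by
    simp only [sec, hMn, hM4, Prod.fst_sub]
    unfold kap
    simp only [Prod.fst_sub, Prod.snd_sub]
    rcases hD0.1 with h | h
    · rw [if_neg (by omega), if_neg (by omega), if_pos (by omega), if_neg (by omega),
        if_neg (by omega), if_neg (by omega)]
      omega
    · rw [if_neg (by omega), if_pos (by omega), if_neg (by omega), if_neg (by omega),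
        if_neg (by omega), if_neg (by omega)]
      omega
  linarith

end Path

end Vale.Agent.P167.Top
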