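import Vale.Agent.P167.Top.Head

/-! The level function of a closed path. Faces are indexed by their bottom-left corners. -/

namespace Vale.Agent.P167.Top

open Finset

variable {v : ℕ → ℤ × ℤ} {d : ℕ → ℤ}

/-- The signed number of passages of the path through the horizontal edge from `(x, y)` to
`(x + 1, y)`. -/
def Jh (v : ℕ → ℤ × ℤ) (d : ℕ → ℤ) (n : ℕ) (x y : ℤ) : ℤ :=
  ∑ i ∈ range n, if mid v d i = (2 * x + 1, 2 * y) then dx (d i) else 0

/-- The signed number of passages of the path through the vertical edge from `(x, y)` to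
`(x, y + 1)`. -/
def Jv (v : ℕ → ℤ × ℤ) (d : ℕ → ℤ) (n : ℕ) (x y : ℤ) : ℤ :=
  ∑ i ∈ range n, if mid v d i = (2 * x, 2 * y + 1) then dy (d i) else 0

/-- The level function: the signed number of passages of the path through the edges below the
face `(x, y)`. -/
def lev (v : ℕ → ℤ × ℤ) (d : ℕ → ℤ) (n : ℕ) (x y : ℤ) : ℤ :=
  ∑ i ∈ range n, if (mid v d i).1 = 2 * x + 1 ∧ (mid v d i).2 ≤ 2 * y then dx (d i) else 0

theorem lev_sub_h (n : ℕ) (x y : ℤ) : lev v d n x y - lev v d n x (y - 1) = Jh v d n x y := by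
  unfold lev Jh
  rw [← Finset.sum_sub_distrib]
  refine Finset.sum_congr rfl fun i _ => ?_
  have c := head_cases (d i)
  simp only [mid, Prod.mk.injEq]
  split_ifs <;> omega

theorem lev_step_aux (a b p q x y : ℤ) (h : (p = 1 ∧ q = 0) ∨ (p = 0 ∧ q = 1) ∨
    (p = -1 ∧ q = 0) ∨ (p = 0 ∧ q = -1)) :
    (if a + p = x ∧ b + q ≤ y then (1 : ℤ) else 0) - (if a = x ∧ b ≤ y then 1 else 0) =
    (if 2 * a + p = 2 * (x - 1) + 1 ∧ 2 * b + q ≤ 2 * y then p else 0) -
      (if 2 * a + p = 2 * x + 1 ∧ 2 * b + q ≤ 2 * y then p else 0) -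
      (if 2 * a + p = 2 * x ∧ 2 * b + q = 2 * y + 1 then q else 0) := by
  rcases h with ⟨rfl, rfl⟩ | ⟨rfl, rfl⟩ | ⟨rfl, rfl⟩ | ⟨rfl, rfl⟩
  · rw [if_neg (c := 2 * a + 1 = 2 * x ∧ _) (by omega)]
    split_ifs <;> omega
  · rw [if_neg (c := 2 * a + 0 = 2 * (x - 1) + 1 ∧ _) (by omega),
      if_neg (c := 2 * a + 0 = 2 * x + 1 ∧ _) (by omega)]
    split_ifs <;> omega
  · rw [if_neg (c := 2 * a + -1 = 2 * x ∧ _) (by omega)]
    split_ifs <;> omega
  · rw [if_neg (c := 2 * a + 0 = 2 * (x - 1) + 1 ∧ _) (by omega),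
      if_neg (c := 2 * a + 0 = 2 * x + 1 ∧ _) (by omega)]
    split_ifs <;> omega

theorem lev_step (h : IsPath v d) (m : ℕ) (x y : ℤ) :
    (if (v (m + 1)).1 = x ∧ (v (m + 1)).2 ≤ y then (1 : ℤ) else 0) -
      (if (v m).1 = x ∧ (v m).2 ≤ y then 1 else 0) =
    (if (mid v d m).1 = 2 * (x - 1) + 1 ∧ (mid v d m).2 ≤ 2 * y then dx (d m) else 0) -
      (if (mid v d m).1 = 2 * x + 1 ∧ (mid v d m).2 ≤ 2 * y then dx (d m) else 0) -
      (if mid v d m = (2 * x, 2 * y + 1) then dy (d m) else 0) := by
  have h1 : (v (m + 1)).1 = (v m).1 + dx (d m) := by rw [h.step m]; rfl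
  have h2 : (v (m + 1)).2 = (v m).2 + dy (d m) := by rw [h.step m]; rfl
  simp only [h1, h2, mid, Prod.mk.injEq]
  refine lev_step_aux _ _ _ _ x y ?_
  have := head_cases (d m)
  omega

theorem lev_sub_v {n : ℕ} (h : IsPath v d) (hn : v n = v 0) (x y : ℤ) :
    lev v d n (x - 1) y - lev v d n x y = Jv v d n x y := by
  have key : ∀ m, lev v d m (x - 1) y - lev v d m x y - Jv v d m x y =
      (if (v m).1 = x ∧ (v m).2 ≤ y then 1 else 0) - (if (v 0).1 = x ∧ (v 0).2 ≤ y then 1 else 0) := by
    intro m
    induction m with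
    | zero => simp [lev, Jv]
    | succ m ih =>
      have e : lev v d (m + 1) (x - 1) y - lev v d (m + 1) x y - Jv v d (m + 1) x y =
          (lev v d m (x - 1) y - lev v d m x y - Jv v d m x y) +
          ((if (mid v d m).1 = 2 * (x - 1) + 1 ∧ (mid v d m).2 ≤ 2 * y then dx (d m) else 0) -
          (if (mid v d m).1 = 2 * x + 1 ∧ (mid v d m).2 ≤ 2 * y then dx (d m) else 0) -
          (if mid v d m = (2 * x, 2 * y + 1) then dy (d m) else 0)) := by
        unfold lev Jv
        rw [Finset.sum_range_succ, Finset.sum_range_succ, Finset.sum_range_succ]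
        ring
      rw [e, ih, ← lev_step h]
      ring
  have := key n
  rw [hn] at this
  linarith

/-- The face to the left of the edge with tail `p` and heading `d`. -/
def lface (p : ℤ × ℤ) (d : ℤ) : ℤ × ℤ :=
  if d % 4 = 0 then p else if d % 4 = 1 then (p.1 - 1, p.2) else
    if d % 4 = 2 then (p.1 - 1, p.2 - 1) else (p.1, p.2 - 1)

/-- The face to the right of the edge with tail `p` and heading `d`. -/
def rface (p : ℤ × ℤ) (d : ℤ) : ℤ × ℤ :=
  if d % 4 = 0 then (p.1, p.2 - 1) else if d % 4 = 1 then p else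
    if d % 4 = 2 then (p.1 - 1, p.2) else (p.1 - 1, p.2 - 1)

theorem lface_turn (p : ℤ × ℤ) (d : ℤ) : lface (p + vec d) (d + 1) = lface p d := by
  unfold lface vec
  rcases head_cases d with ⟨c, cx, cy⟩ | ⟨c, cx, cy⟩ | ⟨c, cx, cy⟩ | ⟨c, cx, cy⟩ <;>
    rw [cx, cy]
  · rw [if_neg (by omega), if_pos (by omega), if_pos (by omega)]
    ext <;> simp
  · rw [if_neg (by omega), if_neg (by omega), if_pos (by omega), if_neg (by omega),
      if_pos (by omega)]
    ext <;> simp
  · rw [if_neg (by omega), if_neg (by omega), if_neg (by omega), if_neg (by omega),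
      if_neg (by omega), if_pos (by omega)]
    ext <;> (simp; try ring)
  · rw [if_pos (by omega), if_neg (by omega), if_neg (by omega), if_neg (by omega)]
    ext <;> (simp; try ring)

theorem rface_turn (p : ℤ × ℤ) (d : ℤ) : rface (p + vec d) (d - 1) = rface p d := by
  unfold rface vec
  rcases head_cases d with ⟨c, cx, cy⟩ | ⟨c, cx, cy⟩ | ⟨c, cx, cy⟩ | ⟨c, cx, cy⟩ <;>
    rw [cx, cy]
  · rw [if_neg (by omega), if_neg (by omega), if_neg (by omega), if_pos (by omega)]
    ext <;> simp
  · rw [if_pos (by omega), if_neg (by omega), if_pos (by omega)]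
    ext <;> simp
  · rw [if_neg (by omega), if_pos (by omega), if_neg (by omega), if_neg (by omega),
      if_pos (by omega)]
    ext <;> (simp; try ring)
  · rw [if_neg (by omega), if_neg (by omega), if_pos (by omega), if_neg (by omega),
      if_neg (by omega), if_neg (by omega)]
    ext <;> (simp; try ring)

/-- The level is one higher on the left of the path than on the right. -/
theorem lev_left {n : ℕ} (h : IsClosed v d n) {i : ℕ} (hi : i < n) :
    lev v d n (lface (v i) (d i)).1 (lface (v i) (d i)).2 =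
      lev v d n (rface (v i) (d i)).1 (rface (v i) (d i)).2 + 1 := by
  have hJ : ∀ (a : ℤ × ℤ) (F : ℤ → ℤ), mid v d i = a →
      ∑ j ∈ range n, (if mid v d j = a then F (d j) else 0) = F (d i) := by
    intro a F ha
    rw [Finset.sum_eq_single_of_mem i (Finset.mem_range.mpr hi), if_pos ha]
    intro j hj hji
    rw [if_neg]
    intro hj'
    exact hji (h.mid_inj (Finset.mem_range.mp hj) hi (hj'.trans ha.symm))
  have hvn : v n = v 0 := by simpa using h.hv 0
  unfold lface rface
  rcases head_cases (d i) with ⟨c, cx, cy⟩ | ⟨c, cx, cy⟩ | ⟨c, cx, cy⟩ | ⟨c, cx, cy⟩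
  · rw [if_pos c, if_pos c]
    have h1 := lev_sub_h (v := v) (d := d) n (v i).1 (v i).2
    rw [Jh, hJ _ dx (by unfold mid; rw [cx, cy]; ext <;> simp)] at h1
    simp only
    linarith
  · rw [if_neg (by omega), if_pos c, if_neg (by omega), if_pos c]
    have h1 := lev_sub_v h.toIsPath hvn (v i).1 (v i).2
    rw [Jv, hJ _ dy (by unfold mid; rw [cx, cy]; ext <;> simp)] at h1
    simp only
    linarith
  · rw [if_neg (by omega), if_neg (by omega), if_pos c, if_neg (by omega), if_neg (by omega),
      if_pos c]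
    have h1 := lev_sub_h (v := v) (d := d) n ((v i).1 - 1) (v i).2
    rw [Jh, hJ _ dx (by unfold mid; rw [cx, cy]; ext <;> (simp; try ring))] at h1
    simp only
    linarith
  · rw [if_neg (by omega), if_neg (by omega), if_neg (by omega), if_neg (by omega),
      if_neg (by omega), if_neg (by omega)]
    have h1 := lev_sub_v h.toIsPath hvn (v i).1 ((v i).2 - 1)
    rw [Jv, hJ _ dy (by unfold mid; rw [cx, cy]; ext <;> (simp; try ring))] at h1
    simp only
    linarith

/-- The level to the left of the path is constant along the path. -/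
theorem lev_const {n : ℕ} (h : IsClosed v d n) {i : ℕ} (hi : i < n) :
    lev v d n (lface (v i) (d i)).1 (lface (v i) (d i)).2 =
      lev v d n (lface (v 0) (d 0)).1 (lface (v 0) (d 0)).2 := by
  induction i with
  | zero => rfl
  | succ i ih =>
    have ih' := ih (by omega)
    have h1 := lev_left h (i := i) (by omega)
    have h2 := lev_left h hi
    rw [← ih']
    rcases h.turn i with ht | ht
    · rw [h.step i, ht, lface_turn]
    · rw [h2, h1, h.step i, ht, rface_turn]

theorem lev_low {n : ℕ} {x y : ℤ} (h : ∀ i < n, (mid v d i).1 = 2 * x + 1 → 2 * y < (mid v d i).2) :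
    lev v d n x y = 0 := by
  unfold lev
  refine Finset.sum_eq_zero fun i hi => if_neg fun hh => ?_
  have := h i (Finset.mem_range.mp hi) hh.1
  omega

/-- The level function of a closed path takes only the values `0` and `s`, where `4 * s` is the
total turning and `s = 1` or `s = -1`. -/
theorem lev_values {n : ℕ} (h : IsClosed v d n) : ∃ s : ℤ, (s = 1 ∨ s = -1) ∧ d n - d 0 = 4 * s ∧
    ∀ x y, lev v d n x y = 0 ∨ lev v d n x y = s := by
  obtain ⟨k, hk, hlow, hdy, hT⟩ := turn_closed h
  have hbelow : ∀ x y, 2 * y < (mid v d k).2 → lev v d n x y = 0 := by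
    intro x y hy
    refine lev_low fun i _ _ => ?_
    have := hlow i
    omega
  set K := lev v d n (lface (v 0) (d 0)).1 (lface (v 0) (d 0)).2 with hK
  have hk1 : _ = K := lev_const h hk
  have hk2 := lev_left h hk
  -- the values next to the path
  have hadj : ∀ x y, lev v d n x y ≠ lev v d n x (y - 1) →
      lev v d n x y = K ∨ lev v d n x y = K - 1 := by
    intro x y hne
    have h1 := lev_sub_h (v := v) (d := d) n x y
    have : ∃ i ∈ range n, (if mid v d i = (2 * x + 1, 2 * y) then dx (d i) else 0) ≠ 0 := by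
      apply Finset.exists_ne_zero_of_sum_ne_zero
      intro h0
      unfold Jh at h1
      omega
    obtain ⟨i, hi, hne⟩ := this
    rw [Finset.mem_range] at hi
    have hm : mid v d i = (2 * x + 1, 2 * y) := by
      by_contra hh
      rw [if_neg hh] at hne
      exact hne rfl
    have h2 : _ = K := lev_const h hi
    have h3 := lev_left h hi
    have hm1 := congrArg Prod.fst hm
    have hm2 := congrArg Prod.snd hm
    simp only [mid] at hm1 hm2
    unfold lface at h2
    unfold lface rface at h3
    rcases head_cases (d i) with ⟨c, cx, cy⟩ | ⟨c, cx, cy⟩ | ⟨c, cx, cy⟩ | ⟨c, cx, cy⟩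
    · rw [if_pos c] at h2
      left
      have e : v i = (x, y) := by ext <;> simp <;> omega
      rw [e] at h2
      exact h2
    · exfalso; omega
    · rw [if_neg (by omega), if_neg (by omega), if_pos c, if_neg (by omega), if_neg (by omega),
        if_pos c] at h3
      rw [if_neg (by omega), if_neg (by omega), if_pos c] at h2
      right
      have e : v i = (x + 1, y) := by ext <;> simp <;> omega
      rw [e] at h2 h3
      simp only [add_sub_cancel_right] at h2 h3
      omega
    · exfalso; omega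
  have hall : ∀ x y, lev v d n x y = 0 ∨ lev v d n x y = K ∨ lev v d n x y = K - 1 := by
    intro x y
    have : ∀ m : ℕ, lev v d n x ((mid v d k).2 / 2 - 1 + m) = 0 ∨
        lev v d n x ((mid v d k).2 / 2 - 1 + m) = K ∨
        lev v d n x ((mid v d k).2 / 2 - 1 + m) = K - 1 := by
      intro m
      induction m with
      | zero => left; exact hbelow _ _ (by push_cast; omega)
      | succ m ih =>
        by_cases hne : lev v d n x ((mid v d k).2 / 2 - 1 + ((m + 1 : ℕ) : ℤ)) =
            lev v d n x ((mid v d k).2 / 2 - 1 + ((m + 1 : ℕ) : ℤ) - 1)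
        · rw [hne, show (mid v d k).2 / 2 - 1 + ((m + 1 : ℕ) : ℤ) - 1 =
            (mid v d k).2 / 2 - 1 + (m : ℤ) by push_cast; ring]
          exact ih
        · right
          exact hadj _ _ hne
    rcases le_or_gt ((mid v d k).2 / 2 - 1) y with hy | hy
    · have := this (y - ((mid v d k).2 / 2 - 1)).toNat
      rwa [Int.toNat_of_nonneg (by omega), show (mid v d k).2 / 2 - 1 +
        (y - ((mid v d k).2 / 2 - 1)) = y by ring] at this
    · left
      exact hbelow _ _ (by omega)
  unfold lface rface at hk2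
  unfold lface at hk1
  have hmk : (mid v d k).2 = 2 * (v k).2 := by
    have : (mid v d k).2 = 2 * (v k).2 + dy (d k) := rfl
    omega
  rcases head_cases (d k) with ⟨c, cx, cy⟩ | ⟨c, cx, cy⟩ | ⟨c, cx, cy⟩ | ⟨c, cx, cy⟩
  · refine ⟨1, Or.inl rfl, by omega, fun x y => ?_⟩
    rw [if_pos c, if_pos c] at hk2
    rw [if_pos c] at hk1
    have h0 := hbelow (v k).1 ((v k).2 - 1) (by omega)
    simp only at hk2
    have := hall x y
    omega
  · exfalso; omega
  · refine ⟨-1, Or.inr rfl, by omega, fun x y => ?_⟩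
    rw [if_neg (by omega), if_neg (by omega), if_pos c, if_neg (by omega), if_neg (by omega),
      if_pos c] at hk2
    rw [if_neg (by omega), if_neg (by omega), if_pos c] at hk1
    have h0 := hbelow ((v k).1 - 1) ((v k).2 - 1) (by omega)
    simp only at hk2 hk1
    have := hall x y
    omega
  · exfalso; omega

end Vale.Agent.P167.Top
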